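import Crest.Agent.R258.Cech
import Crest.Prelude.Def_QuadricBundle

/-!
The transition matrices of the example, and their ampleness.
-/

set_option autoImplicit false

open MvPolynomial Crest.AlgGeometry.QuadricBundle

namespace Crest.Agent.R258

/-- homogeneous coordinates in the first factor -/
def Xh (a : Fin 2) (x : ℂ) : Fin 2 → ℂ := if a = 0 then ![1, x] else ![x, 1]

noncomputable def epsF (b : Fin 2) (v : Fin 2 → ℂ) (y : ℂ) : ℂ :=
  if b = 0 then y⁻¹ ^ 11 * Ef (v 0) (v 1) y else -(y⁻¹ * Ef (v 0) (v 1) y⁻¹)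

noncomputable def MY (b b' : Fin 2) (v : Fin 2 → ℂ) (y : ℂ) : Matrix (Fin 2) (Fin 2) ℂ :=
  if b = b' then 1 else !![y ^ 8, 0; y ^ 8 * epsF b v y, y⁻¹ ^ 4]

noncomputable def DX (a a' : Fin 2) (x : ℂ) : Matrix (Fin 2) (Fin 2) ℂ :=
  if a = a' then 1 else !![1, 0; 0, x ^ 2]

/-- the nef bundle -/
noncomputable def g0 : Transition 2 := fun α β p =>
  MY α.2 β.2 (Xh α.1 (p 0)) (p 1) * DX α.1 β.1 (p 0)

def pw (n : ℕ) (p : Fin 2 → ℂ) : Fin 2 → ℂ := fun i => p i ^ n

/-- the ample bundles -/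
noncomputable def gn (n : ℕ) : Transition 2 := fun α β p =>
  lineTrans 1 1 α β p • g0 α β (pw n p)

lemma fin2_cases (a : Fin 2) : a = 0 ∨ a = 1 := by fin_cases a <;> simp

lemma Xh_self (a : Fin 2) (x : ℂ) : Xh a x a = 1 := by
  rcases fin2_cases a with rfl | rfl <;> simp [Xh]

lemma Xh_ne {a a' : Fin 2} (h : a ≠ a') {x : ℂ} (hx : x ≠ 0) :
    Xh a x = fun i => x * Xh a' x⁻¹ i := by
  funext i
  rcases fin2_cases a with rfl | rfl <;> rcases fin2_cases a' with rfl | rfl <;>
    rcases fin2_cases i with rfl | rfl <;> simp_all [Xh]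

lemma epsF_mul (b : Fin 2) (v : Fin 2 → ℂ) (t y : ℂ) :
    epsF b (fun i => t * v i) y = t ^ 2 * epsF b v y := by
  unfold epsF; split_ifs <;> simp only [Ef] <;> ring

lemma tau_zero (α β : Chart) (p : Fin 2 → ℂ) :
    tau α β p 0 = if α.1 = β.1 then p 0 else (p 0)⁻¹ := rfl
lemma tau_one (α β : Chart) (p : Fin 2 → ℂ) :
    tau α β p 1 = if α.2 = β.2 then p 1 else (p 1)⁻¹ := rfl

lemma tau_pw (n : ℕ) (α β : Chart) (p : Fin 2 → ℂ) : tau α β (pw n p) = pw n (tau α β p) := by
  funext i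
  rcases fin2_cases i with rfl | rfl
  · simp only [pw, tau_zero]; split_ifs <;> simp
  · simp only [pw, tau_one]; split_ifs <;> simp

lemma pw_mem {n : ℕ} {α β : Chart} {p : Fin 2 → ℂ} (hp : p ∈ overlap α β) :
    pw n p ∈ overlap α β :=
  ⟨fun h => pow_ne_zero _ (hp.1 h), fun h => pow_ne_zero _ (hp.2 h)⟩

lemma lineTrans_pw (n : ℕ) (r t : ℤ) (α β : Chart) (p : Fin 2 → ℂ) :
    lineTrans r t α β (pw n p) = lineTrans (n * r) (n * t) α β p := by
  simp only [lineTrans, pw, zpow_mul, zpow_natCast]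

lemma lineTrans_add (r t r' t' : ℤ) {α β : Chart} {p : Fin 2 → ℂ} (hp : p ∈ overlap α β) :
    lineTrans (r + r') (t + t') α β p = lineTrans r t α β p * lineTrans r' t' α β p := by
  simp only [lineTrans]
  by_cases h1 : α.1 = β.1 <;> by_cases h2 : α.2 = β.2 <;> simp only [h1, h2, if_true, if_false]
  · ring
  · rw [zpow_add₀ (hp.2 h2)]; ring
  · rw [zpow_add₀ (hp.1 h1)]; ring
  · rw [zpow_add₀ (hp.2 h2), zpow_add₀ (hp.1 h1)]; ring

lemma lineTrans_pow (m : ℕ) (α β : Chart) (p : Fin 2 → ℂ) :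
    lineTrans 1 1 α β p ^ m = lineTrans m m α β p := by
  simp only [lineTrans]
  split_ifs <;> simp [mul_pow]

lemma lineTrans_cocycle (r t : ℤ) {α β γ : Chart} {p : Fin 2 → ℂ}
    (hp : p ∈ overlap α β ∩ overlap α γ) :
    lineTrans r t α β p * lineTrans r t β γ (tau α β p) = lineTrans r t α γ p := by
  obtain ⟨⟨h1, h2⟩, -, -⟩ := hp
  obtain ⟨a, b⟩ := α
  obtain ⟨a', b'⟩ := β
  obtain ⟨a'', b''⟩ := γ
  simp only [lineTrans, tau_zero, tau_one] at *
  have e1 : (if a = a' then 1 else p 0 ^ r) *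
      (if a' = a'' then 1 else (if a = a' then p 0 else (p 0)⁻¹) ^ r) =
      if a = a'' then 1 else p 0 ^ r := by
    rcases fin2_cases a with rfl | rfl <;> rcases fin2_cases a' with rfl | rfl <;>
      rcases fin2_cases a'' with rfl | rfl <;> simp_all [zpow_ne_zero]
  have e2 : (if b = b' then 1 else p 1 ^ t) *
      (if b' = b'' then 1 else (if b = b' then p 1 else (p 1)⁻¹) ^ t) =
      if b = b'' then 1 else p 1 ^ t := by
    rcases fin2_cases b with rfl | rfl <;> rcases fin2_cases b' with rfl | rfl <;>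
      rcases fin2_cases b'' with rfl | rfl <;> simp_all [zpow_ne_zero]
  rw [← e1, ← e2]; ring

lemma MY_inv {b b' : Fin 2} (h : b ≠ b') (v : Fin 2 → ℂ) {y : ℂ} (hy : y ≠ 0) :
    MY b b' v y * MY b' b v y⁻¹ = 1 := by
  simp only [MY, if_neg h, if_neg h.symm]
  ext i j
  rcases fin2_cases b with rfl | rfl <;> rcases fin2_cases b' with rfl | rfl <;>
    rcases fin2_cases i with rfl | rfl <;> rcases fin2_cases j with rfl | rfl <;>
    simp_all [Matrix.mul_apply, Fin.sum_univ_two, epsF] <;> field_simp <;> ring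

lemma DX_MY (a a' b b' : Fin 2) {x : ℂ} (hx : a ≠ a' → x ≠ 0) (y : ℂ) :
    DX a a' x * MY b b' (Xh a' (if a = a' then x else x⁻¹)) y =
      MY b b' (Xh a x) y * DX a a' x := by
  by_cases h : a = a'
  · subst h; simp [DX]
  · by_cases h' : b = b'
    · simp [MY, h']
    · rw [Xh_ne h (hx h)]
      simp only [DX, MY, if_neg h, if_neg h', epsF_mul]
      ext i j
      rcases fin2_cases i with rfl | rfl <;> rcases fin2_cases j with rfl | rfl <;>
        simp [Matrix.mul_apply, Fin.sum_univ_two] <;> ring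

lemma DX_cocycle (a a' a'' : Fin 2) {x : ℂ} (hx : a ≠ a' → x ≠ 0) :
    DX a a' x * DX a' a'' (if a = a' then x else x⁻¹) = DX a a'' x := by
  rcases fin2_cases a with rfl | rfl <;> rcases fin2_cases a' with rfl | rfl <;>
    rcases fin2_cases a'' with rfl | rfl <;> simp_all [DX, Matrix.one_fin_two]

lemma MY_cocycle (b b' b'' : Fin 2) (v : Fin 2 → ℂ) {y : ℂ} (hy : b ≠ b' → y ≠ 0) :
    MY b b' v y * MY b' b'' v (if b = b' then y else y⁻¹) = MY b b'' v y := by
  by_cases h : b = b'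
  · subst h; simp [MY]
  · by_cases h' : b' = b''
    · subst h'; simp [MY]
    · have : b'' = b := by
        rcases fin2_cases b with rfl | rfl <;> rcases fin2_cases b' with rfl | rfl <;>
          rcases fin2_cases b'' with rfl | rfl <;> simp_all
      subst this
      rw [if_neg h, MY_inv h v (hy h)]
      simp [MY]

lemma g0_cocycle (α β γ : Chart) (p : Fin 2 → ℂ) (hp : p ∈ overlap α β) :
    g0 α β p * g0 β γ (tau α β p) = g0 α γ p := by
  simp only [g0, tau_zero, tau_one]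
  rw [mul_assoc, ← mul_assoc (DX _ _ _), DX_MY _ _ _ _ hp.1, mul_assoc, DX_cocycle _ _ _ hp.1,
    ← mul_assoc, MY_cocycle _ _ _ _ hp.2]

lemma Ef_diff {E : Type*} [NormedAddCommGroup E] [NormedSpace ℂ E] {s : Set E}
    {f g h : E → ℂ} (hf : DifferentiableOn ℂ f s) (hg : DifferentiableOn ℂ g s)
    (hh : DifferentiableOn ℂ h s) : DifferentiableOn ℂ (fun p => Ef (f p) (g p) (h p)) s := by
  simp only [Ef, e0, e1, e2]
  fun_prop

lemma g0_holo (α β : Chart) (i j : Fin 2) :
    DifferentiableOn ℂ (fun p => g0 α β p i j) (overlap α β) := by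
  have h0 : DifferentiableOn ℂ (fun p : Fin 2 → ℂ => p 0) (overlap α β) := by fun_prop
  have h1 : DifferentiableOn ℂ (fun p : Fin 2 → ℂ => p 1) (overlap α β) := by fun_prop
  have hX : ∀ k, DifferentiableOn ℂ (fun p : Fin 2 → ℂ => Xh α.1 (p 0) k) (overlap α β) := by
    intro k
    unfold Xh
    split_ifs <;> rcases fin2_cases k with rfl | rfl <;> simp <;> fun_prop
  have hD : ∀ i j, DifferentiableOn ℂ (fun p : Fin 2 → ℂ => DX α.1 β.1 (p 0) i j)
      (overlap α β) := by
    intro i j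
    unfold DX
    split_ifs
    · fun_prop
    · rcases fin2_cases i with rfl | rfl <;> rcases fin2_cases j with rfl | rfl <;>
        simp <;> fun_prop
  have hM : ∀ i j, DifferentiableOn ℂ
      (fun p : Fin 2 → ℂ => MY α.2 β.2 (Xh α.1 (p 0)) (p 1) i j) (overlap α β) := by
    intro i j
    unfold MY
    split_ifs with h
    · fun_prop
    · have hi : DifferentiableOn ℂ (fun p : Fin 2 → ℂ => (p 1)⁻¹) (overlap α β) :=
        h1.inv fun p hp => hp.2 h
      have he : DifferentiableOn ℂ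
          (fun p : Fin 2 → ℂ => epsF α.2 (Xh α.1 (p 0)) (p 1)) (overlap α β) := by
        unfold epsF
        split_ifs
        · exact (hi.pow 11).mul (Ef_diff (hX 0) (hX 1) h1)
        · exact (hi.mul (Ef_diff (hX 0) (hX 1) hi)).neg
      rcases fin2_cases i with rfl | rfl <;> rcases fin2_cases j with rfl | rfl
      · exact h1.pow 8
      · exact differentiableOn_const 0
      · exact (h1.pow 8).mul he
      · exact hi.pow 4
  simp only [g0, Matrix.mul_apply, Fin.sum_univ_two]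
  exact ((hM _ _).mul (hD _ _)).add ((hM _ _).mul (hD _ _))

lemma lineTrans_holo (α β : Chart) :
    DifferentiableOn ℂ (fun p => lineTrans 1 1 α β p) (overlap α β) := by
  simp only [lineTrans, zpow_one]
  split_ifs <;> fun_prop

lemma pw_diff (n : ℕ) : Differentiable ℂ (pw n) := by
  unfold pw; fun_prop

theorem gn_holo (n : ℕ) : IsHoloCocycle (gn n) where
  refl α p := by simp [gn, g0, MY, DX, lineTrans]
  holo α β i j := by
    simp only [gn, Matrix.smul_apply, smul_eq_mul]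
    exact (lineTrans_holo α β).mul
      ((g0_holo α β i j).comp (pw_diff n).differentiableOn fun p hp => pw_mem hp)
  cocycle α β γ p hp := by
    simp only [gn]
    rw [Matrix.smul_mul, Matrix.mul_smul, smul_smul, lineTrans_cocycle 1 1 hp, ← tau_pw,
      g0_cocycle _ _ _ _ (pw_mem hp.1)]

/-! ### Sections -/

lemma eval₂_mul_hom {R T : Type} [CommRing R] [CommRing T] (f : R →+* T) (v : Fin 2 → T) (t : T)
    {n : ℕ} {g : S R} (hg : g.IsHomogeneous n) :
    eval₂Hom f (fun i => t * v i) g = t ^ n * eval₂Hom f v g := by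
  induction n generalizing g with
  | zero =>
    obtain ⟨r, rfl⟩ := hom_zero hg
    simp
  | succ n ih =>
    obtain ⟨g0, g1, h0, h1, rfl⟩ := hom_succ hg
    simp only [map_add, map_mul, ih h0, ih h1, eval₂Hom_X']
    ring

lemma frameSubst_eq (M : Matrix (Fin 2) (Fin 2) ℂ) (Q : S ℂ) :
    frameSubst M Q = eval₂Hom C (fun j => ∑ i, C (M i j) * X i) Q := rfl

lemma frameSubst_one (Q : S ℂ) : frameSubst (1 : Matrix (Fin 2) (Fin 2) ℂ) Q = Q := by
  have : (fun j : Fin 2 => ∑ i, C ((1 : Matrix (Fin 2) (Fin 2) ℂ) i j) * X i) =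
      (X : Fin 2 → S ℂ) := by
    funext j
    rcases fin2_cases j with rfl | rfl <;> simp [Fin.sum_univ_two]
  rw [frameSubst, this, bind₁_X_left, AlgHom.id_apply]

lemma frameSubst_frameSubst (M M' : Matrix (Fin 2) (Fin 2) ℂ) (Q : S ℂ) :
    frameSubst M (frameSubst M' Q) = frameSubst (M * M') Q := by
  simp only [frameSubst, bind₁_bind₁]
  congr 2
  funext j
  simp only [Fin.sum_univ_two, map_add, map_mul, bind₁_C_right, bind₁_X_right, Matrix.mul_apply]
  ring

lemma frameSubst_smul (M : Matrix (Fin 2) (Fin 2) ℂ) (c : ℂ) (Q : S ℂ) :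
    frameSubst M (c • Q) = c • frameSubst M Q := by
  simp only [frameSubst, map_smul]

lemma frameSubst_smul_mat (M : Matrix (Fin 2) (Fin 2) ℂ) (c : ℂ) {m : ℕ} {Q : S ℂ}
    (hQ : Q.IsHomogeneous m) : frameSubst (c • M) Q = c ^ m • frameSubst M Q := by
  rw [frameSubst_eq, frameSubst_eq, smul_eq_C_mul, map_pow, ← eval₂_mul_hom C _ (C c) hQ]
  congr 2
  funext j
  simp only [Fin.sum_univ_two, Matrix.smul_apply, smul_eq_mul, map_mul]
  ring

lemma ev_scale (v : Fin 2 → ℂ) (t y : ℂ) {m c : ℕ} {G : A P} (h : N m c G) :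
    ev (fun i => t * v i) y G = t ^ c • frameSubst !![1, 0; 0, t ^ 2] (ev v y G) := by
  induction h with
  | zero => simp [frameSubst]
  | add _ _ ih ih' => simp only [map_add, ih, ih', frameSubst, smul_add]
  | gen u j g h hg =>
    have := eval₂_mul_hom (Polynomial.evalRingHom y) v t hg
    simp only [map_mul, map_pow, ev_C, ev_X, ev', this, frameSubst, bind₁_C_right, bind₁_X_right,
      smul_eq_C_mul, Fin.sum_univ_two]
    simp
    ring

lemma ev_X_compat (a a' : Fin 2) {x : ℂ} (hx : a ≠ a' → x ≠ 0) (y : ℂ) {m c : ℕ} {G : A P}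
    (h : N m c G) :
    ev (Xh a x) y G = (if a = a' then 1 else x ^ (c : ℤ)) •
      frameSubst (DX a a' x) (ev (Xh a' (if a = a' then x else x⁻¹)) y G) := by
  by_cases ha : a = a'
  · subst ha; simp [DX, frameSubst_one]
  · simp only [if_neg ha, DX, zpow_natCast]
    rw [Xh_ne ha (hx ha), ev_scale _ _ _ h]

/-- evaluation of Laurent data -/
noncomputable def evL' (v : Fin 2 → ℂ) (y : ℂ) (hy : y ≠ 0) : S La →+* ℂ :=
  eval₂Hom (LaurentPolynomial.eval₂ (RingHom.id ℂ) (Units.mk0 y hy)) v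

lemma evL'_CY (v : Fin 2 → ℂ) (y : ℂ) (hy : y ≠ 0) : evL' v y hy (C Y) = y := by
  simp [evL', Y]
lemma evL'_CYi (v : Fin 2 → ℂ) (y : ℂ) (hy : y ≠ 0) : evL' v y hy (C Yi) = y⁻¹ := by
  simp [evL', Yi]
lemma evL'_X (v : Fin 2 → ℂ) (y : ℂ) (hy : y ≠ 0) (i : Fin 2) : evL' v y hy (X i) = v i := by
  simp [evL']

lemma evL'_i0 (v : Fin 2 → ℂ) (y : ℂ) (hy : y ≠ 0) (g : S P) :
    evL' v y hy (map i0 g) = ev' v y g := by
  have : (evL' v y hy).comp (map i0) = ev' v y := by
    refine MvPolynomial.ringHom_ext (fun f => ?_) (fun i => ?_)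
    · have : ((evL' v y hy).comp C).comp i0 = Polynomial.evalRingHom y := by
        refine Polynomial.ringHom_ext (fun a => ?_) ?_
        · simp [evL', i0_C]
        · simp only [RingHom.comp_apply, i0_X, evL'_CY]; simp
      simpa [ev'_C] using RingHom.congr_fun this f
    · simp only [RingHom.comp_apply, map_X, evL'_X, ev'_X]
  exact RingHom.congr_fun this g

lemma evL'_i1 (v : Fin 2 → ℂ) (y : ℂ) (hy : y ≠ 0) (g : S P) :
    evL' v y hy (map i1 g) = ev' v y⁻¹ g := by
  have : (evL' v y hy).comp (map i1) = ev' v y⁻¹ := by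
    refine MvPolynomial.ringHom_ext (fun f => ?_) (fun i => ?_)
    · have : ((evL' v y hy).comp C).comp i1 = Polynomial.evalRingHom y⁻¹ := by
        refine Polynomial.ringHom_ext (fun a => ?_) ?_
        · simp [evL', i1_C]
        · simp only [RingHom.comp_apply, i1_X, evL'_CYi]; simp
      simpa [ev'_C] using RingHom.congr_fun this f
    · simp only [RingHom.comp_apply, map_X, evL'_X, ev'_X]
  exact RingHom.congr_fun this g

lemma evL'_eps (v : Fin 2 → ℂ) (y : ℂ) (hy : y ≠ 0) : evL' v y hy eps = epsF 0 v y := by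
  simp only [eps, map_mul, map_pow, map_Ef, evL'_CY, evL'_CYi, evL'_X, epsF, if_true]

lemma evL_io (v : Fin 2 → ℂ) (y : ℂ) (hy : y ≠ 0) (G : A P) :
    map (evL' v y hy) (io G) = ev v y G := by
  have : (map (evL' v y hy)).comp io = ev v y := by
    refine MvPolynomial.ringHom_ext (fun f => ?_) (fun i => ?_)
    · simp only [RingHom.comp_apply, io_C, map_C, evL'_i0, ev_C]
    · simp only [RingHom.comp_apply, io_X, map_X, ev_X]
  exact RingHom.congr_fun this G

lemma evL_th (v : Fin 2 → ℂ) (y : ℂ) (hy : y ≠ 0) (G : A P) :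
    map (evL' v y hy) (th G) = frameSubst (MY 0 1 v y) (ev v y⁻¹ G) := by
  have : (map (evL' v y hy)).comp th =
      (eval₂Hom C (fun j => ∑ i, C (MY 0 1 v y i j) * X i)).comp (ev v y⁻¹) := by
    refine MvPolynomial.ringHom_ext (fun f => ?_) (fun i => ?_)
    · simp only [RingHom.comp_apply, th_C, map_C, evL'_i1, ev_C, eval₂Hom_C]
    · rcases fin2_cases i with rfl | rfl
      · simp only [RingHom.comp_apply, th_X0, map_mul, map_add, map_C, map_X, map_pow, evL'_CY,
          evL'_eps, ev_X, eval₂Hom_X', Fin.sum_univ_two]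
        simp [MY]
        ring
      · simp only [RingHom.comp_apply, th_X1, map_mul, map_C, map_X, map_pow, evL'_CYi,
          ev_X, eval₂Hom_X', Fin.sum_univ_two]
        simp [MY, -inv_pow]
  exact RingHom.congr_fun this G

lemma ev_Y_compat01 (v : Fin 2 → ℂ) {y : ℂ} (hy : y ≠ 0) {m c d : ℕ} {G : Fin 2 → A P}
    (h : FS m c d G) :
    ev v y (G 0) = y ^ d • frameSubst (MY 0 1 v y) (ev v y⁻¹ (G 1)) := by
  have := congrArg (map (evL' v y hy)) h.2
  rw [evL_io, map_mul, evL_th, map_C, map_pow, map_pow, evL'_CY] at this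
  rw [this, smul_eq_C_mul]

lemma ev_Y_compat (b b' : Fin 2) (v : Fin 2 → ℂ) {y : ℂ} (hy : b ≠ b' → y ≠ 0) {m c d : ℕ}
    {G : Fin 2 → A P} (h : FS m c d G) :
    ev v y (G b) = (if b = b' then 1 else y ^ (d : ℤ)) •
      frameSubst (MY b b' v y) (ev v (if b = b' then y else y⁻¹) (G b')) := by
  by_cases hb : b = b'
  · subst hb; simp [MY, frameSubst_one]
  · have hy' := hy hb
    simp only [if_neg hb, zpow_natCast]
    rcases fin2_cases b with rfl | rfl <;> rcases fin2_cases b' with rfl | rfl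
    · exact absurd rfl hb
    · exact ev_Y_compat01 v hy' h
    · rw [ev_Y_compat01 v (inv_ne_zero hy') h, frameSubst_smul, frameSubst_frameSubst,
        MY_inv hb v hy', frameSubst_one, smul_smul, ← mul_pow, mul_inv_cancel₀ hy', one_pow,
        one_smul, inv_inv]
    · exact absurd rfl hb

/-- Sections of `Sym^m E ⊗ O(c, d)`. -/
def IsSec (g : Transition 2) (m : ℕ) (c d : ℤ) (Q : Chart → (Fin 2 → ℂ) → S ℂ) : Prop :=
  (∀ α p, (Q α p).IsHomogeneous m) ∧
  (∀ α (e : Fin 2 →₀ ℕ), Differentiable ℂ (fun p => MvPolynomial.coeff e (Q α p))) ∧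
  ∀ α β, ∀ p ∈ overlap α β,
    Q α p = lineTrans c d α β p • frameSubst (g α β p) (Q β (tau α β p))

lemma ev'_diff (a : Fin 2) (g : S P) :
    Differentiable ℂ (fun p : Fin 2 → ℂ => ev' (Xh a (p 0)) (p 1) g) := by
  induction g using MvPolynomial.induction_on with
  | C f =>
    simp only [ev'_C]
    exact f.differentiable.comp (by fun_prop)
  | add p q hp hq => simp only [map_add]; exact hp.add hq
  | mul_X p i hp =>
    simp only [map_mul, ev'_X]
    refine hp.mul ?_
    unfold Xh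
    split_ifs <;> rcases fin2_cases i with rfl | rfl <;> simp <;> fun_prop

lemma FS.isSec {m c d : ℕ} {G : Fin 2 → A P} (h : FS m c d G) :
    IsSec g0 m c d (fun α p => ev (Xh α.1 (p 0)) (p 1) (G α.2)) := by
  refine ⟨fun α p => ev_hom _ _ (h.1 _), fun α e => ?_, fun α β p hp => ?_⟩
  · simp only [ev, coeff_map]
    exact ev'_diff _ _
  · simp only [tau_zero, tau_one, lineTrans, g0]
    rw [ev_Y_compat α.2 β.2 _ hp.2 h, ev_X_compat α.1 β.1 hp.1 _ (h.1 _), frameSubst_smul,
      frameSubst_frameSubst, smul_smul, mul_comm]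

/-- the scalar section that is `1` on the chart `α` -/
def oneSec (i j : ℕ) (α β : Chart) (p : Fin 2 → ℂ) : ℂ :=
  (if β.1 = α.1 then 1 else p 0 ^ i) * (if β.2 = α.2 then 1 else p 1 ^ j)

lemma oneSec_eq (i j : ℕ) (α β : Chart) (p : Fin 2 → ℂ) :
    oneSec i j α β p = lineTrans i j β α p := by
  simp only [oneSec, lineTrans, zpow_natCast]

lemma oneSec_compat (i j : ℕ) (α β γ : Chart) {p : Fin 2 → ℂ} (hp : p ∈ overlap β γ) :
    oneSec i j α β p = lineTrans i j β γ p * oneSec i j α γ (tau β γ p) := by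
  obtain ⟨h1, h2⟩ := hp
  obtain ⟨a, b⟩ := β
  obtain ⟨a', b'⟩ := γ
  obtain ⟨a'', b''⟩ := α
  simp only [lineTrans, oneSec, tau_zero, tau_one, zpow_natCast] at *
  have e1 : (if a = a' then 1 else p 0 ^ i) *
      (if a' = a'' then 1 else (if a = a' then p 0 else (p 0)⁻¹) ^ i) =
      if a = a'' then 1 else p 0 ^ i := by
    rcases fin2_cases a with rfl | rfl <;> rcases fin2_cases a' with rfl | rfl <;>
      rcases fin2_cases a'' with rfl | rfl <;> simp_all
  have e2 : (if b = b' then 1 else p 1 ^ j) *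
      (if b' = b'' then 1 else (if b = b' then p 1 else (p 1)⁻¹) ^ j) =
      if b = b'' then 1 else p 1 ^ j := by
    rcases fin2_cases b with rfl | rfl <;> rcases fin2_cases b' with rfl | rfl <;>
      rcases fin2_cases b'' with rfl | rfl <;> simp_all
  rw [← e1, ← e2]; ring

theorem gn_ample (n : ℕ) : IsAmple (gn n) := by
  intro k
  refine ⟨k + 4 * n, fun m hm α p R hR => ?_⟩
  obtain ⟨G, hG, eG⟩ := (GG_both m).1 α.1 α.2 (Xh α.1 (p 0 ^ n)) (p 1 ^ n) (Xh_self _ _) R hR
  obtain ⟨h1, h2, h3⟩ := hG.isSec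
  obtain ⟨j, hj⟩ : ∃ j, m = k + 4 * n + j := ⟨m - (k + 4 * n), by omega⟩
  refine ⟨fun β q => oneSec (4 * n + j) j α β q •
    ev (Xh β.1 (pw n q 0)) (pw n q 1) (G β.2), ⟨fun β q => ?_, fun β e => ?_, fun β γ q hq => ?_⟩,
    ?_⟩
  · beta_reduce
    rw [smul_eq_C_mul]
    exact (h1 β (pw n q)).C_mul _
  · simp only [coeff_smul, smul_eq_mul]
    refine Differentiable.mul ?_ ((h2 β e).comp (pw_diff n))
    unfold oneSec
    split_ifs <;> fun_prop
  · have e3 := h3 β γ (pw n q) (pw_mem hq)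
    simp only at e3 ⊢
    rw [e3, gn, frameSubst_smul, frameSubst_smul_mat _ _ (h1 γ _), tau_pw, lineTrans_pw,
      lineTrans_pow, oneSec_compat _ _ α β γ hq, smul_smul, smul_smul, smul_smul]
    congr 1
    have e4 : lineTrans (-(k : ℤ)) (-(k : ℤ)) β γ q * lineTrans (m : ℤ) (m : ℤ) β γ q =
        lineTrans ((4 * n + j : ℕ) : ℤ) (j : ℤ) β γ q *
          lineTrans ((n : ℤ) * ((0 : ℕ) : ℤ)) ((n : ℤ) * ((4 : ℕ) : ℤ)) β γ q := by
      rw [← lineTrans_add _ _ _ _ hq, ← lineTrans_add _ _ _ _ hq]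
      congr 1 <;> (subst hj; push_cast; ring)
    linear_combination (-oneSec (4 * n + j) j α γ (tau β γ q)) * e4
  · simp only [oneSec, if_true, mul_one, one_smul]
    exact eG

end Crest.Agent.R258
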