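import Mathlib

/-!
Second derivatives along paths, and convexity of circle means of subharmonic functions.
-/

set_option autoImplicit false

open Complex Filter Topology Set

namespace Crest.Agent.R258

/-- second derivative at `0` -/
noncomputable def d2 (f : ℝ → ℝ) : ℝ := deriv (deriv f) 0

/-- Laplacian at `0`, through the two axes -/
noncomputable def Lap0 (f : ℂ → ℝ) : ℝ :=
  d2 (fun t : ℝ => f t) + d2 (fun t : ℝ => f (I * t))

lemma d2_eq (f : ℝ → ℝ) : d2 f = iteratedDeriv 2 f 0 := by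
  rw [d2, iteratedDeriv_succ, iteratedDeriv_one]

lemma d2_nonneg_of_isLocalMin {f : ℝ → ℝ} (hc : ContinuousAt f 0) (h : IsLocalMin f 0) :
    0 ≤ d2 f := by
  by_contra hneg
  push Not at hneg
  have hmax := isLocalMax_of_deriv_deriv_neg hneg h.deriv_eq_zero hc
  have hconst : f =ᶠ[𝓝 0] fun _ => f 0 := by
    filter_upwards [h, hmax] with x h1 h2 using le_antisymm h2 h1
  have h1 : deriv f =ᶠ[𝓝 0] fun _ => 0 := by
    filter_upwards [hconst.deriv] with x hx
    rw [hx, deriv_const]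
  have h2 : d2 f = 0 := by rw [d2, h1.deriv_eq, deriv_const]
  exact absurd h2 hneg.ne

lemma d2_sub {f g : ℝ → ℝ} (hf : ContDiffAt ℝ 2 f 0) (hg : ContDiffAt ℝ 2 g 0) :
    d2 (fun t => f t - g t) = d2 f - d2 g := by
  simp only [d2_eq]
  exact iteratedDeriv_fun_sub hf hg

lemma cd_re {f : ℂ → ℝ} (hf : ContDiffAt ℝ 2 f 0) : ContDiffAt ℝ 2 (fun t : ℝ => f t) 0 := by
  have h : ContDiffAt ℝ 2 (fun t : ℝ => (t : ℂ)) 0 := ofRealCLM.contDiff.contDiffAt
  exact ContDiffAt.comp (g := f) 0 (by simpa using hf) h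

lemma cd_im {f : ℂ → ℝ} (hf : ContDiffAt ℝ 2 f 0) :
    ContDiffAt ℝ 2 (fun t : ℝ => f (I * t)) 0 := by
  have h : ContDiffAt ℝ 2 (fun t : ℝ => I * (t : ℂ)) 0 :=
    contDiffAt_const.mul ofRealCLM.contDiff.contDiffAt
  exact ContDiffAt.comp (g := f) 0 (by simpa using hf) h

lemma Lap0_sub {f g : ℂ → ℝ} (hf : ContDiffAt ℝ 2 f 0) (hg : ContDiffAt ℝ 2 g 0) :
    Lap0 (fun w => f w - g w) = Lap0 f - Lap0 g := by
  simp only [Lap0]
  rw [d2_sub (cd_re hf) (cd_re hg), d2_sub (cd_im hf) (cd_im hg)]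
  ring

lemma Lap0_nonneg_of_isLocalMin {f : ℂ → ℝ} (hc : ContinuousAt f 0) (h : IsLocalMin f 0) :
    0 ≤ Lap0 f := by
  have c1 : Continuous (fun t : ℝ => (t : ℂ)) := continuous_ofReal
  have c2 : Continuous (fun t : ℝ => I * (t : ℂ)) := by fun_prop
  refine add_nonneg (d2_nonneg_of_isLocalMin ?_ ?_) (d2_nonneg_of_isLocalMin ?_ ?_)
  · exact ContinuousAt.comp (g := f) (by simpa using hc) c1.continuousAt
  · exact IsLocalMin.comp_continuous (g := fun t : ℝ => (t : ℂ)) (by simpa using h)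
      c1.continuousAt
  · exact ContinuousAt.comp (g := f) (by simpa using hc) c2.continuousAt
  · exact IsLocalMin.comp_continuous (g := fun t : ℝ => I * (t : ℂ)) (by simpa using h)
      c2.continuousAt

lemma d2_comp {f : ℂ → ℝ} {z : ℂ} (hf : ContDiffAt ℝ 2 f z) {γ γ' : ℝ → ℂ} {a : ℂ}
    (h0 : γ 0 = z) (h1 : ∀ t, HasDerivAt γ (γ' t) t) (h2 : HasDerivAt γ' a 0) :
    d2 (fun t => f (γ t)) = fderiv ℝ (fderiv ℝ f) z (γ' 0) (γ' 0) + fderiv ℝ f z a := by
  have hγc : ContinuousAt γ 0 := (h1 0).continuousAt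
  have hev : ∀ᶠ w in 𝓝 z, DifferentiableAt ℝ f w := by
    filter_upwards [hf.eventually (by simp)] with w hw using hw.differentiableAt (by simp)
  have hev' : ∀ᶠ t in 𝓝 (0 : ℝ), DifferentiableAt ℝ f (γ t) := by
    have : Tendsto γ (𝓝 0) (𝓝 z) := h0 ▸ hγc
    exact this.eventually hev
  have e1 : deriv (fun t => f (γ t)) =ᶠ[𝓝 0] fun t => fderiv ℝ f (γ t) (γ' t) := by
    filter_upwards [hev'] with t ht
    exact (ht.hasFDerivAt.comp_hasDerivAt t (h1 t)).deriv
  have hd : DifferentiableAt ℝ (fderiv ℝ f) z :=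
    (hf.fderiv_right (m := 1) (by norm_num)).differentiableAt (by simp)
  have e2 : HasDerivAt (fun t => fderiv ℝ f (γ t)) (fderiv ℝ (fderiv ℝ f) z (γ' 0)) 0 := by
    have := (h0 ▸ hd : DifferentiableAt ℝ (fderiv ℝ f) (γ 0)).hasFDerivAt.comp_hasDerivAt 0 (h1 0)
    rw [h0] at this
    exact this
  rw [d2, e1.deriv_eq, (e2.clm_apply h2).deriv, h0]

lemma hasDerivAt_mul_ofReal (a : ℂ) (t : ℝ) : HasDerivAt (fun t : ℝ => a * (t : ℂ)) a t := by
  simpa using (ofRealCLM.hasDerivAt (x := t)).const_mul a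

lemma Lap0_eq {f : ℂ → ℝ} (hf : ContDiffAt ℝ 2 f 0) :
    Lap0 f = fderiv ℝ (fderiv ℝ f) 0 1 1 + fderiv ℝ (fderiv ℝ f) 0 I I := by
  have e1 := d2_comp hf (γ := fun t : ℝ => (t : ℂ)) (γ' := fun _ => 1) (a := 0) (by simp)
    (fun t => by simpa using hasDerivAt_mul_ofReal 1 t) (hasDerivAt_const _ _)
  have e2 := d2_comp hf (γ := fun t : ℝ => I * (t : ℂ)) (γ' := fun _ => I) (a := 0) (by simp)
    (fun t => hasDerivAt_mul_ofReal I t) (hasDerivAt_const _ _)
  rw [Lap0, e1, e2]; simp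

lemma Lap0_exp {f : ℂ → ℝ} (hf : ContDiffAt ℝ 2 f 0) :
    Lap0 (fun w => f (exp w - 1)) = Lap0 f := by
  have h : ∀ (a : ℂ) (t : ℝ), HasDerivAt (fun t : ℝ => exp (a * t)) (exp (a * t) * a) t :=
    fun a t => (hasDerivAt_mul_ofReal a t).cexp
  have e1 := d2_comp hf (γ := fun t : ℝ => exp (1 * t) - 1) (γ' := fun t => exp (1 * t) * 1)
    (a := exp (1 * (0 : ℝ)) * 1 * 1) (by simp) (fun t => (h 1 t).sub_const 1)
    ((h 1 0).mul_const 1)
  have e2 := d2_comp hf (γ := fun t : ℝ => exp (I * t) - 1) (γ' := fun t => exp (I * t) * I)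
    (a := exp (I * (0 : ℝ)) * I * I) (by simp) (fun t => (h I t).sub_const 1)
    ((h I 0).mul_const I)
  rw [Lap0_eq hf, Lap0]
  simp only [one_mul] at e1
  rw [e1, e2]
  simp
  ring

lemma d2_re_analytic {u : ℂ → ℂ} (hu : AnalyticAt ℂ u 0) (a : ℂ) :
    d2 (fun t : ℝ => (u (a * t)).re) = (deriv (deriv u) 0 * a * a).re := by
  have hev : ∀ᶠ w in 𝓝 (0 : ℂ), AnalyticAt ℂ u w := hu.eventually_analyticAt
  have ht : Tendsto (fun t : ℝ => a * (t : ℂ)) (𝓝 0) (𝓝 0) := by
    have : Continuous (fun t : ℝ => a * (t : ℂ)) := by fun_prop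
    simpa using this.tendsto 0
  have e1 : deriv (fun t : ℝ => (u (a * t)).re) =ᶠ[𝓝 0]
      fun t : ℝ => (deriv u (a * t) * a).re := by
    filter_upwards [ht.eventually hev] with t h
    have h1 : HasDerivAt (fun t : ℝ => u (a * t)) (deriv u (a * t) * a) t :=
      h.differentiableAt.hasDerivAt.comp_of_eq t (hasDerivAt_mul_ofReal a t) rfl
    exact (reCLM.hasFDerivAt.comp_hasDerivAt t h1).deriv
  have h2 : HasDerivAt (fun t : ℝ => deriv u (a * t)) (deriv (deriv u) 0 * a) 0 :=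
    hu.deriv.differentiableAt.hasDerivAt.comp_of_eq 0 (hasDerivAt_mul_ofReal a 0) (by simp)
  rw [d2, e1.deriv_eq]
  exact (reCLM.hasFDerivAt.comp_hasDerivAt 0 (h2.mul_const a)).deriv

lemma Lap0_re_analytic {u : ℂ → ℂ} (hu : AnalyticAt ℂ u 0) : Lap0 (fun w => (u w).re) = 0 := by
  have e1 := d2_re_analytic hu 1
  have e2 := d2_re_analytic hu I
  simp only [one_mul, mul_one] at e1
  rw [Lap0, e1, e2, mul_assoc, I_mul_I]
  simp

/-! ### Circle means -/

lemma hasDerivAt_line {V : ℂ → ℝ} (hV : Differentiable ℝ V) (w a : ℂ) (t : ℝ) :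
    HasDerivAt (fun t : ℝ => V (w + a * t)) (fderiv ℝ V (w + a * t) a) t :=
  (hV _).hasFDerivAt.comp_hasDerivAt t ((hasDerivAt_mul_ofReal a t).const_add w)

lemma hasDerivAt_mean {F : ℂ → ℝ} (hF : ContDiff ℝ 1 F) (s : ℝ) :
    HasDerivAt (fun s : ℝ => ∫ θ in (0 : ℝ)..2 * Real.pi, F (s + θ * I))
      (∫ θ in (0 : ℝ)..2 * Real.pi, fderiv ℝ F (s + θ * I) 1) s := by
  have hc : Continuous F := hF.continuous
  have hc' : Continuous (fun w => fderiv ℝ F w 1) :=
    (hF.continuous_fderiv (by simp)).clm_apply continuous_const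
  have hK : IsCompact (Metric.closedBall s 1 ×ˢ uIcc (0 : ℝ) (2 * Real.pi)) :=
    (isCompact_closedBall s 1).prod isCompact_uIcc
  have hc'' : Continuous (fun q : ℝ × ℝ => fderiv ℝ F (q.1 + q.2 * I) 1) :=
    hc'.comp (by fun_prop)
  obtain ⟨C, hC⟩ := hK.exists_bound_of_continuousOn hc''.continuousOn
  refine (intervalIntegral.hasDerivAt_integral_of_dominated_loc_of_deriv_le
    (F := fun (s : ℝ) (θ : ℝ) => F (s + θ * I))
    (F' := fun (s : ℝ) (θ : ℝ) => fderiv ℝ F (s + θ * I) 1) (bound := fun _ => C)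
    (Metric.closedBall_mem_nhds s one_pos) ?_ ?_ ?_ ?_ ?_ ?_).2
  · refine Eventually.of_forall fun x => Continuous.aestronglyMeasurable ?_
    fun_prop
  · refine Continuous.intervalIntegrable ?_ _ _
    fun_prop
  · refine Continuous.aestronglyMeasurable ?_
    exact hc'.comp (by fun_prop)
  · exact Eventually.of_forall fun θ hθ x hx => hC (x, θ) ⟨hx, uIoc_subset_uIcc hθ⟩
  · exact intervalIntegrable_const
  · refine Eventually.of_forall fun θ _ x _ => ?_
    have := hasDerivAt_line (hF.differentiable (by simp)) (θ * I) 1 x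
    simpa [add_comm] using this

lemma convexOn_mean {V : ℂ → ℝ} (hV : ContDiff ℝ 2 V)
    (hper : ∀ w, V (w + 2 * Real.pi * I) = V w)
    (hL : ∀ w0, 0 ≤ Lap0 (fun w => V (w0 + w))) :
    ConvexOn ℝ univ (fun s : ℝ => ∫ θ in (0 : ℝ)..2 * Real.pi, V (s + θ * I)) := by
  have hV1 : ContDiff ℝ 1 V := hV.of_le (by norm_num)
  have hVd : Differentiable ℝ V := hV1.differentiable (by simp)
  have hD : ∀ a : ℂ, ContDiff ℝ 1 (fun w => fderiv ℝ V w a) := fun a =>
    (hV.fderiv_right (m := 1) (by norm_num)).clm_apply contDiff_const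
  have hDd : ∀ a : ℂ, Differentiable ℝ (fun w => fderiv ℝ V w a) := fun a =>
    (hD a).differentiable (by simp)
  have hDc : ∀ a : ℂ, Continuous (fun w => fderiv ℝ (fun w => fderiv ℝ V w a) w a) := fun a =>
    ((hD a).continuous_fderiv (by simp)).clm_apply continuous_const
  have hd2 : ∀ w0 a : ℂ, d2 (fun t : ℝ => V (w0 + a * t)) =
      fderiv ℝ (fun w => fderiv ℝ V w a) w0 a := by
    intro w0 a
    have e1 : deriv (fun t : ℝ => V (w0 + a * t)) = fun t : ℝ => fderiv ℝ V (w0 + a * t) a :=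
      funext fun t => (hasDerivAt_line hVd w0 a t).deriv
    rw [d2, e1, (hasDerivAt_line (hDd a) w0 a 0).deriv]
    simp
  have e1 : deriv (fun s : ℝ => ∫ θ in (0 : ℝ)..2 * Real.pi, V (s + θ * I)) =
      fun s : ℝ => ∫ θ in (0 : ℝ)..2 * Real.pi, fderiv ℝ V (s + θ * I) 1 :=
    funext fun s => (hasDerivAt_mean hV1 s).deriv
  refine convexOn_univ_of_deriv2_nonneg (fun s => (hasDerivAt_mean hV1 s).differentiableAt) ?_ ?_
  · rw [e1]
    exact fun s => (hasDerivAt_mean (hD 1) s).differentiableAt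
  · intro s
    rw [Function.iterate_succ, Function.iterate_one, Function.comp_apply, e1,
      (hasDerivAt_mean (hD 1) s).deriv]
    have hint : ∀ a : ℂ, IntervalIntegrable
        (fun θ : ℝ => fderiv ℝ (fun w => fderiv ℝ V w a) (s + θ * I) a) MeasureTheory.volume
        0 (2 * Real.pi) := fun a =>
      ((hDc a).comp (show Continuous fun θ : ℝ => (s : ℂ) + θ * I by fun_prop)).intervalIntegrable
        _ _
    have hzero : ∫ θ in (0 : ℝ)..2 * Real.pi,
        fderiv ℝ (fun w => fderiv ℝ V w I) (s + θ * I) I = 0 := by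
      have h1 : ∀ θ ∈ uIcc (0 : ℝ) (2 * Real.pi), HasDerivAt
          (fun θ : ℝ => fderiv ℝ V (s + θ * I) I)
          (fderiv ℝ (fun w => fderiv ℝ V w I) (s + θ * I) I) θ := by
        intro θ _
        simpa [mul_comm] using hasDerivAt_line (hDd I) s I θ
      rw [intervalIntegral.integral_eq_sub_of_hasDerivAt h1 (hint I)]
      have h2 : fderiv ℝ V (s + 2 * Real.pi * I) = fderiv ℝ V s := by
        rw [← fderiv_comp_add_right]
        congr 1
        exact funext hper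
      push_cast
      rw [h2]; simp
    have h3 : ∫ θ in (0 : ℝ)..2 * Real.pi, fderiv ℝ (fun w => fderiv ℝ V w 1) (s + θ * I) 1 =
        ∫ θ in (0 : ℝ)..2 * Real.pi, (fderiv ℝ (fun w => fderiv ℝ V w 1) (s + θ * I) 1 +
          fderiv ℝ (fun w => fderiv ℝ V w I) (s + θ * I) I) := by
      rw [intervalIntegral.integral_add (hint 1) (hint I), hzero, add_zero]
    rw [h3]
    refine intervalIntegral.integral_nonneg (by positivity) fun θ _ => ?_
    have := hL (s + θ * I)
    rw [← hd2, ← hd2]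
    simpa [Lap0] using this

lemma monotone_of_convex_bdd {f : ℝ → ℝ} (hf : ConvexOn ℝ univ f) {C : ℝ}
    (hC : ∀ s ≤ 0, f s ≤ C) : Monotone f := by
  intro a b hab
  by_contra hlt
  push Not at hlt
  have hab' : a < b := lt_of_le_of_ne hab (by rintro rfl; exact lt_irrefl _ hlt)
  -- slopes: for x < a, (f a - f x)/(a - x) ≤ (f b - f a)/(b - a) < 0
  set k := (f a - f b) / (b - a) with hk
  have hkpos : 0 < k := div_pos (by linarith) (by linarith)
  set x := min (a - 1) 0 - (|C| + |f a|) / k with hx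
  have hq : 0 ≤ (|C| + |f a|) / k := by positivity
  have hxa : x < a := by
    have := min_le_left (a - 1) 0
    linarith
  have hx0 : x ≤ 0 := by
    have := min_le_right (a - 1) 0
    linarith
  have hs := hf.slope_mono_adjacent (mem_univ x) (mem_univ b) hxa hab'
  have h1 : (f b - f a) / (b - a) = -k := by rw [hk]; ring
  rw [h1, div_le_iff₀ (by linarith)] at hs
  have h2 : k * (a - x) ≥ k * 1 + (|C| + |f a|) := by
    have h3 : a - x ≥ 1 + (|C| + |f a|) / k := by
      have := min_le_left (a - 1) 0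
      linarith
    have h4 : k * (1 + (|C| + |f a|) / k) = k * 1 + (|C| + |f a|) := by field_simp
    nlinarith
  have h5 := hC x hx0
  have h6 := le_abs_self C
  have h7 := neg_abs_le (f a)
  nlinarith

lemma antitone_of_convex_bdd {f : ℝ → ℝ} (hf : ConvexOn ℝ univ f) {C : ℝ}
    (hC : ∀ s, 0 ≤ s → f s ≤ C) : Antitone f := by
  have h1 : ConvexOn ℝ univ (fun s => f (-s)) := by
    refine ⟨convex_univ, fun x _ y _ a b ha hb hab => ?_⟩
    have := hf.2 (mem_univ (-x)) (mem_univ (-y)) ha hb hab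
    simpa [add_comm] using this
  have h2 := monotone_of_convex_bdd h1 (C := C) fun s hs => hC _ (by linarith)
  intro a b hab
  simpa using h2 (neg_le_neg hab)

end Crest.Agent.R258
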