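import Crest.Agent.R258.Data

/-!
Two-chart splitting of Laurent sections and global generation, in formal terms.
-/

set_option autoImplicit false

open MvPolynomial

namespace Crest.Agent.R258

abbrev P : Type := Polynomial ℂ
abbrev La : Type := LaurentPolynomial ℂ

noncomputable def Y : La := LaurentPolynomial.T 1
noncomputable def Yi : La := LaurentPolynomial.T (-1)

lemma Y_mul_Yi : Y * Yi = 1 := by
  rw [Y, Yi, ← LaurentPolynomial.T_add]; simp

noncomputable def i0 : P →+* La := Polynomial.toLaurent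
noncomputable def i1 : P →+* La :=
  (LaurentPolynomial.invert (R := ℂ)).toAlgHom.toRingHom.comp Polynomial.toLaurent

lemma i0_X : i0 Polynomial.X = Y := by simp [i0, Y]
lemma i1_X : i1 Polynomial.X = Yi := by simp [i1, Yi]
lemma i0_C (a : ℂ) : i0 (Polynomial.C a) = LaurentPolynomial.C a := by simp [i0]
lemma i1_C (a : ℂ) : i1 (Polynomial.C a) = LaurentPolynomial.C a := by simp [i1]

lemma split_scalar (f : La) : ∃ f0 f1 : P, f = i0 f0 + i1 f1 := by
  induction f using LaurentPolynomial.induction_on' with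
  | add p q hp hq =>
    obtain ⟨p0, p1, rfl⟩ := hp
    obtain ⟨q0, q1, rfl⟩ := hq
    exact ⟨p0 + q0, p1 + q1, by simp only [map_add]; ring⟩
  | C_mul_T n a =>
    obtain ⟨k, rfl | rfl⟩ := Int.eq_nat_or_neg n
    · refine ⟨Polynomial.C a * Polynomial.X ^ k, 0, ?_⟩
      rw [map_zero, add_zero, map_mul, map_pow, i0_X, i0_C, Y, LaurentPolynomial.T_pow, mul_one]
    · refine ⟨0, Polynomial.C a * Polynomial.X ^ k, ?_⟩
      rw [map_zero, zero_add, map_mul, map_pow, i1_X, i1_C, Yi, LaurentPolynomial.T_pow,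
        mul_neg, mul_one]

lemma split_form (d : ℕ) {c : ℕ} {g : S La} (hg : g.IsHomogeneous c) :
    ∃ g0 g1 : S P, g0.IsHomogeneous c ∧ g1.IsHomogeneous c ∧
      g = map i0 g0 + C (Y ^ d) * map i1 g1 := by
  induction hg using IsWeightedHomogeneous.induction_on with
  | zero => exact ⟨0, 0, isHomogeneous_zero _ _ _, isHomogeneous_zero _ _ _, by simp⟩
  | add p q hp hq ihp ihq =>
    obtain ⟨p0, p1, hp0, hp1, rfl⟩ := ihp
    obtain ⟨q0, q1, hq0, hq1, rfl⟩ := ihq
    exact ⟨p0 + q0, p1 + q1, hp0.add hq0, hp1.add hq1, by simp only [map_add]; ring⟩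
  | monomial e r hr =>
    obtain ⟨f0, f1, rfl⟩ := split_scalar r
    refine ⟨monomial e f0, monomial e (Polynomial.X ^ d * f1),
      isWeightedHomogeneous_monomial _ _ _ hr, isWeightedHomogeneous_monomial _ _ _ hr, ?_⟩
    rw [map_monomial, map_monomial, C_mul_monomial, map_mul i1, map_pow i1, i1_X, ← mul_assoc,
      ← mul_pow, Y_mul_Yi, one_pow, one_mul, map_add]

/-- the extension form on the overlap -/
noncomputable def eps : S La := C (Yi ^ 11) * Ef (X 0) (X 1) (C Y)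

lemma eps_hom : eps.IsHomogeneous 2 := (Ef_hom Y).C_mul _

noncomputable def io : A P →+* A La := map (map i0)

noncomputable def th : A P →+* A La :=
  eval₂Hom (C.comp (map i1)) ![C (C (Y ^ 8)) * (X 0 + C eps * X 1), C (C (Yi ^ 4)) * X 1]

lemma io_C (g : S P) : io (C g) = C (map i0 g) := by simp [io]
lemma io_X (i : Fin 2) : io (X i) = X i := by simp [io]
lemma th_C (g : S P) : th (C g) = C (map i1 g) := by simp [th]
lemma th_X0 : th (X 0) = C (C (Y ^ 8)) * (X 0 + C eps * X 1) := by simp [th]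
lemma th_X1 : th (X 1) = C (C (Yi ^ 4)) * X 1 := by simp [th]

lemma io_N {m c : ℕ} {G : A P} (h : N m c G) : N m c (io G) := h.map i0

lemma tau_N : N 1 0 (X 0 + C eps * X 1 : A La) := by
  refine N.X0.add ?_
  simpa using N.gen (m := 1) (c := 0) 0 1 eps rfl eps_hom

lemma th_N {m c : ℕ} {G : A P} (h : N m c G) : N m c (th G) := by
  induction h with
  | zero => simpa using N.zero
  | add _ _ ih ih' => rw [map_add]; exact ih.add ih'
  | gen u j g h hg =>
    have h1 : N j c (C (map i1 g) * X 0 ^ 0 * X 1 ^ j : A La) :=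
      N.gen 0 j _ (by simp) (hg.map i1)
    have h2 := ((h1.mul (tau_N.pow u)).CC_mul ((Y ^ 8) ^ u * (Yi ^ 4) ^ j)).cast
      (show j + u = m by omega) (add_zero c)
    convert h2 using 1
    simp only [map_mul, map_pow, th_C, th_X0, th_X1, mul_pow]
    ring

lemma tau_pow (m : ℕ) : ∃ E : A La, N m 2 E ∧
    (X 0 + C eps * X 1 : A La) ^ (m + 1) = X 0 ^ (m + 1) + X 1 * E := by
  induction m with
  | zero => exact ⟨C eps, N.ofC eps_hom, by ring⟩
  | succ m ih =>
    obtain ⟨E, hE, h⟩ := ih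
    refine ⟨C eps * X 0 ^ (m + 1) + E * (X 0 + C eps * X 1),
      (N.C_X0_pow eps_hom _).add (hE.mul tau_N), ?_⟩
    rw [pow_succ, h]; ring

noncomputable def DD : Fin 2 → Datum P := ![D0 Polynomial.X, D1 Polynomial.X]

lemma DD0 : DD 0 = D0 Polynomial.X := rfl
lemma DD1 : DD 1 = D1 Polynomial.X := rfl

noncomputable def DL : Datum La := D0 Y

lemma map_i0_K : map i0 (DD 0).K = DL.K := by
  rw [DD0, DL, D0_K, D0_K, map_Kf]; simp [i0_X]
lemma map_i0_del : map i0 (DD 0).del = DL.del := by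
  rw [DD0, DL, D0_del, D0_del, map_Df]; simp [i0_X]

lemma CY_mul : (C Y : S La) * C Yi = 1 := by rw [← map_mul, Y_mul_Yi, map_one]

lemma map_i1_K : map i1 (DD 1).K = C (Y ^ 8) * (DL.K + eps * DL.del) := by
  rw [DD1, DL, D1_K, D0_K, D0_del, map_Lf, eps]
  simp only [map_X, map_C, i1_X, map_pow]
  exact Lf_eq _ _ _ _ CY_mul
lemma map_i1_del : map i1 (DD 1).del = C (Yi ^ 4) * DL.del := by
  rw [DD1, DL, D1_del, D0_del, map_Dg]
  simp only [map_X, map_C, i1_X, map_pow]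
  exact Dg_eq _ _ _ _ CY_mul

lemma pi_io (G : A P) : DL.pi (io G) = map i0 ((DD 0).pi G) := by
  have : DL.pi.comp io = (map i0).comp (DD 0).pi := by
    refine MvPolynomial.ringHom_ext (fun g => ?_) (fun i => ?_)
    · simp only [RingHom.comp_apply, io_C, Datum.pi_C]
    · fin_cases i
      · simp only [RingHom.comp_apply, io_X, Fin.zero_eta, Datum.pi_X0, map_i0_K]
      · simp only [RingHom.comp_apply, io_X, Fin.mk_one, Datum.pi_X1, map_i0_del]
  exact RingHom.congr_fun this G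

lemma pi_th (G : A P) : DL.pi (th G) = map i1 ((DD 1).pi G) := by
  have : DL.pi.comp th = (map i1).comp (DD 1).pi := by
    refine MvPolynomial.ringHom_ext (fun g => ?_) (fun i => ?_)
    · simp only [RingHom.comp_apply, th_C, Datum.pi_C]
    · fin_cases i
      · simp only [RingHom.comp_apply, Fin.zero_eta, th_X0, Datum.pi_X0, map_i1_K, map_mul,
          map_add, Datum.pi_C, Datum.pi_X1]
      · simp only [RingHom.comp_apply, Fin.mk_one, th_X1, Datum.pi_X1, map_i1_del, map_mul,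
          Datum.pi_C]
  exact RingHom.congr_fun this G

lemma io_U : io (DD 0).U = DL.U := by
  simp only [Datum.U, map_sub, map_mul, io_C, io_X, map_i0_K, map_i0_del]

lemma CCY_mul : (C (C Y) : A La) * C (C Yi) = 1 := by rw [← map_mul, CY_mul, map_one]

lemma CCY4 : (C (C Y) : A La) ^ 4 * C (C Yi) ^ 4 = 1 := by rw [← mul_pow, CCY_mul, one_pow]

lemma th_U : th (DD 1).U = C (C (Y ^ 4)) * DL.U := by
  simp only [Datum.U, map_sub, map_mul, th_C, th_X0, th_X1, map_i1_K, map_i1_del, map_add,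
    map_pow]
  linear_combination (C (C Y) ^ 4 * (C DL.del * X 0 - C DL.K * X 1)) * CCY4

lemma DL_rho : DL.z0 * DL.z2 - DL.z1 * DL.z1 ≠ 0 := by
  intro h
  have h2 : DL.z0 * DL.z2 - DL.z1 * DL.z1 = z0 Y * z2 Y - z1 Y * z1 Y := rfl
  rw [h2] at h
  have h1 := congrArg (LaurentPolynomial.eval₂ (RingHom.id ℂ) (Units.mk0 (2 : ℂ) two_ne_zero)) h
  rw [map_sub, map_mul, map_mul, map_z0, map_z1, map_z2, map_zero, Y,
    LaurentPolynomial.eval₂_T] at h1
  simp only [zpow_one, Units.val_mk0, z0, z1, z2] at h1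
  norm_num at h1

/-- Vanishing of the first cohomology of the twisted symmetric power. -/
def V (m c d : ℕ) : Prop :=
  ∀ G : A La, N m c G → ∃ G0 G1 : A P, N m c G0 ∧ N m c G1 ∧
    G = io G0 + C (C (Y ^ d)) * th G1

lemma V_zero (c d : ℕ) : V 0 c d := by
  intro G hG
  obtain ⟨g, hg, rfl⟩ := hG.decomp_zero
  obtain ⟨g0, g1, h0, h1, rfl⟩ := split_form d hg
  exact ⟨C g0, C g1, N.ofC h0, N.ofC h1, by rw [io_C, th_C, map_add, map_mul]⟩

lemma V_W {m c d : ℕ} (h : V m (c + 2) d) : V (m + 1) c (d + 4) := by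
  intro G hG
  obtain ⟨g, G', hg, hG', rfl⟩ := hG.decomp
  obtain ⟨a, b, ha, hb, rfl⟩ := split_form (8 * (m + 1) + (d + 4)) hg
  obtain ⟨E, hE, hE'⟩ := tau_pow m
  have h1 : N m (c + 2) (G' - C (C (Y ^ (8 * (m + 1) + (d + 4))) * map i1 b) * E) :=
    hG'.sub (hE.C_mul ((hb.map i1).C_mul _))
  obtain ⟨H0, H1, hH0, hH1, e⟩ := h _ h1
  refine ⟨C a * X 0 ^ (m + 1) + X 1 * H0, C b * X 0 ^ (m + 1) + X 1 * H1,
    (N.C_X0_pow ha _).add hH0.X1_mul, (N.C_X0_pow hb _).add hH1.X1_mul, ?_⟩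
  simp only [map_add, map_mul, map_pow, io_C, io_X, th_C, th_X0, th_X1, mul_pow, hE'] at e ⊢
  linear_combination X 1 * e - (C (C Y) ^ d * X 1 * th H1) * CCY4

lemma V_U {m c d : ℕ} (h : V m c (d + 4)) : V (m + 1) (c + 2) d := by
  intro G hG
  obtain ⟨a, b, ha, hb, e⟩ := split_form d (DL.pi_hom hG)
  obtain ⟨Ga, hGa, ea⟩ := (DD 0).surj (m + 1) (c + 1) ha
  obtain ⟨Gb, hGb, eb⟩ := (DD 1).surj (m + 1) (c + 1) hb
  have h1 : N (m + 1) (c + 2) (G - io Ga - C (C (Y ^ d)) * th Gb) :=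
    (hG.sub (io_N hGa)).sub ((th_N hGb).CC_mul _)
  obtain ⟨G', hG', e'⟩ := DL.ker DL_rho m c h1 (by
    simp only [map_sub, map_mul, Datum.pi_C, pi_io, pi_th, ea, eb, e]; ring)
  obtain ⟨H0, H1, hH0, hH1, rfl⟩ := h _ hG'
  refine ⟨Ga + (DD 0).U * H0, Gb + (DD 1).U * H1,
    hGa.add (((DD 0).U_N.mul hH0).cast (by omega) (by omega)),
    hGb.add (((DD 1).U_N.mul hH1).cast (by omega) (by omega)), ?_⟩
  simp only [map_add, map_mul, map_pow, io_U, th_U] at e' ⊢
  linear_combination e'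

lemma V_both (m : ℕ) : V m 0 4 ∧ V m 2 0 := by
  induction m with
  | zero => exact ⟨V_zero _ _, V_zero _ _⟩
  | succ m ih => exact ⟨V_W (c := 0) (d := 0) ih.2, V_U (c := 0) (d := 0) ih.1⟩

/-- Formal global sections. -/
def FS (m c d : ℕ) (G : Fin 2 → A P) : Prop :=
  (∀ b, N m c (G b)) ∧ io (G 0) = C (C (Y ^ d)) * th (G 1)

lemma FS.add {m c d : ℕ} {G G' : Fin 2 → A P} (h : FS m c d G) (h' : FS m c d G') :
    FS m c d (fun b => G b + G' b) :=
  ⟨fun b => (h.1 b).add (h'.1 b), by simp only [map_add, h.2, h'.2]; ring⟩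

lemma FS.smul {m c d : ℕ} {G : Fin 2 → A P} (h : FS m c d G) (r : ℂ) :
    FS m c d (fun b => C (C (Polynomial.C r)) * G b) :=
  ⟨fun b => (h.1 b).CC_mul _, by
    simp only [map_mul, io_C, th_C, map_C, i0_C, i1_C, h.2]; ring⟩

lemma FS.W_mul {m c d : ℕ} {G : Fin 2 → A P} (h : FS m (c + 2) d G) :
    FS (m + 1) c (d + 4) (fun b => X 1 * G b) :=
  ⟨fun b => (h.1 b).X1_mul, by
    simp only [map_mul, io_X, th_X1, h.2, map_pow]
    linear_combination (-(C (C Y) ^ d * X 1 * th (G 1))) * CCY4⟩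

lemma FS.U_mul {m c d : ℕ} {G : Fin 2 → A P} (h : FS m c (d + 4) G) :
    FS (m + 1) (c + 2) d (fun b => (DD b).U * G b) :=
  ⟨fun b => ((DD b).U_N.mul (h.1 b)).cast (by omega) (by omega), by
    simp only [map_mul, io_U, th_U, h.2, map_pow]
    ring⟩

/-- evaluation of a form with polynomial coefficients -/
noncomputable def ev' (v : Fin 2 → ℂ) (y : ℂ) : S P →+* ℂ :=
  eval₂Hom (Polynomial.evalRingHom y) v

/-- evaluation of a formal section at a point -/
noncomputable def ev (v : Fin 2 → ℂ) (y : ℂ) : A P →+* S ℂ := map (ev' v y)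

lemma ev_C (v : Fin 2 → ℂ) (y : ℂ) (g : S P) : ev v y (C g) = C (ev' v y g) := by simp [ev]
lemma ev_X (v : Fin 2 → ℂ) (y : ℂ) (i : Fin 2) : ev v y (X i) = X i := by simp [ev]
lemma ev'_C (v : Fin 2 → ℂ) (y : ℂ) (f : P) : ev' v y (C f) = f.eval y := by simp [ev']
lemma ev'_X (v : Fin 2 → ℂ) (y : ℂ) (i : Fin 2) : ev' v y (X i) = v i := by simp [ev']

lemma ev_hom (v : Fin 2 → ℂ) (y : ℂ) {m c : ℕ} {G : A P} (h : N m c G) :
    (ev v y G).IsHomogeneous m := h.isHomogeneous.map _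

lemma eval_ev (v : Fin 2 → ℂ) (y : ℂ) (D : Datum P) (G : A P) :
    eval ![ev' v y D.K, ev' v y D.del] (ev v y G) = ev' v y (D.pi G) := by
  have : (eval ![ev' v y D.K, ev' v y D.del]).comp (ev v y) = (ev' v y).comp D.pi := by
    refine MvPolynomial.ringHom_ext (fun g => ?_) (fun i => ?_)
    · simp only [RingHom.comp_apply, ev_C, Datum.pi_C, eval_C]
    · fin_cases i
      · simp only [RingHom.comp_apply, Fin.zero_eta, ev_X, Datum.pi_X0, eval_X,
          Matrix.cons_val_zero]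
      · simp only [RingHom.comp_apply, Fin.mk_one, ev_X, Datum.pi_X1, eval_X,
          Matrix.cons_val_one, Matrix.cons_val_zero]
  exact RingHom.congr_fun this G

/-- Global generation, in formal terms. -/
def GG (m c d : ℕ) : Prop :=
  ∀ (a b : Fin 2) (v : Fin 2 → ℂ) (y : ℂ), v a = 1 → ∀ R : S ℂ, R.IsHomogeneous m →
    ∃ G : Fin 2 → A P, FS m c d G ∧ ev v y (G b) = R

lemma line_sec (c d : ℕ) (a b : Fin 2) (v : Fin 2 → ℂ) (y : ℂ) (hv : v a = 1) :
    ∃ g : Fin 2 → S P, (∀ b, (g b).IsHomogeneous c) ∧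
      map i0 (g 0) = C (Y ^ d) * map i1 (g 1) ∧ ev' v y (g b) = 1 := by
  fin_cases b
  · refine ⟨![X a ^ c, C (Polynomial.X ^ d) * X a ^ c], ?_, ?_, ?_⟩
    · intro b
      fin_cases b
      · exact isHomogeneous_X_pow _ _
      · exact isHomogeneous_C_mul_X_pow _ _ _
    · simp only [Matrix.cons_val_zero, Matrix.cons_val_one, map_mul, map_pow, map_X, map_C, i1_X]
      rw [← mul_assoc, ← mul_pow, CY_mul, one_pow, one_mul]
    · simp [ev'_X, hv]
  · refine ⟨![C (Polynomial.X ^ d) * X a ^ c, X a ^ c], ?_, ?_, ?_⟩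
    · intro b
      fin_cases b
      · exact isHomogeneous_C_mul_X_pow _ _ _
      · exact isHomogeneous_X_pow _ _
    · simp only [Matrix.cons_val_zero, Matrix.cons_val_one, map_mul, map_pow, map_X, map_C, i0_X]
    · simp [ev'_X, hv]

lemma GG_zero (c d : ℕ) : GG 0 c d := by
  intro a b v y hv R hR
  obtain ⟨r, rfl⟩ := hom_zero hR
  obtain ⟨g, hg, e, e'⟩ := line_sec c d a b v y hv
  have h1 : FS 0 c d (fun b => C (g b)) :=
    ⟨fun b => N.ofC (hg b), by simp only [io_C, th_C, e, map_mul]⟩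
  refine ⟨_, h1.smul r, ?_⟩
  simp only [map_mul, ev_C, e', ev'_C, Polynomial.eval_C, map_one, mul_one]

lemma GG_W {m c d : ℕ} (hV : V m (c + 2) d) (h : GG m (c + 2) d) : GG (m + 1) c (d + 4) := by
  intro a b v y hv R hR
  obtain ⟨g, hg, e, e'⟩ := line_sec c (8 * (m + 1) + (d + 4)) a b v y hv
  obtain ⟨E, hE, hE'⟩ := tau_pow m
  obtain ⟨H0, H1, hH0, hH1, eH⟩ := hV _ (hE.C_mul ((hg 0).map i0))
  have h1 : FS (m + 1) c (d + 4)
      (fun b => C (g b) * X 0 ^ (m + 1) + X 1 * (![H0, -H1] : Fin 2 → A P) b) := by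
    refine ⟨fun b => (N.C_X0_pow (hg b) _).add (N.X1_mul ?_), ?_⟩
    · fin_cases b
      · exact hH0
      · exact hH1.neg
    · simp only [map_add, map_mul, map_pow, io_C, io_X, th_C, th_X0, th_X1, mul_pow, hE',
        Matrix.cons_val_zero, Matrix.cons_val_one, map_neg, e] at eH ⊢
      linear_combination (-X 1) * eH + (C (C Y) ^ d * X 1 * th H1) * CCY4
  set G1 : Fin 2 → A P :=
    fun b => C (g b) * X 0 ^ (m + 1) + X 1 * (![H0, -H1] : Fin 2 → A P) b with hG1
  have h2 : eval ![(1 : ℂ), 0] (ev v y (G1 b)) = 1 := by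
    simp only [hG1, map_add, map_mul, map_pow, ev_C, ev_X, e', eval_X]
    simp
  have h3 : (R - C (eval ![(1 : ℂ), 0] R) * ev v y (G1 b)).IsHomogeneous (m + 1) :=
    hR.sub ((ev_hom v y (h1.1 b)).C_mul _)
  obtain ⟨R', hR', eR⟩ := div_lin (z0 := 1) (z1 := 0) isCoprime_one_left h3 (by
    rw [map_sub, map_mul, h2, eval_C]; ring)
  obtain ⟨G2, hG2, eG2⟩ := h a b v y hv R' hR'
  refine ⟨_, (h1.smul (eval ![(1 : ℂ), 0] R)).add hG2.W_mul, ?_⟩
  simp only [map_add, map_mul, ev_C, ev'_C, Polynomial.eval_C, ev_X, eG2]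
  simp only [lin, map_one, map_zero] at eR
  linear_combination -eR

lemma GG_U {m c d : ℕ} (hV : V m c (d + 4)) (h : GG m c (d + 4)) : GG (m + 1) (c + 2) d := by
  intro a b v y hv R hR
  obtain ⟨g, hg, e, e'⟩ := line_sec (4 * (m + 1) + (c + 1 + 1)) d a b v y hv
  obtain ⟨Ga, hGa, ea⟩ := (DD 0).surj (m + 1) (c + 1) (hg 0)
  obtain ⟨Gb, hGb, eb⟩ := (DD 1).surj (m + 1) (c + 1) (hg 1)
  have h1 : N (m + 1) (c + 2) (io Ga - C (C (Y ^ d)) * th Gb) :=
    (io_N hGa).sub ((th_N hGb).CC_mul _)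
  obtain ⟨G', hG', eG'⟩ := DL.ker DL_rho m c h1 (by
    simp only [map_sub, map_mul, Datum.pi_C, pi_io, pi_th, ea, eb, e]; ring)
  obtain ⟨H0, H1, hH0, hH1, rfl⟩ := hV _ hG'
  have h2 : FS (m + 1) (c + 2) d
      (fun b => (![Ga, Gb] : Fin 2 → A P) b + (DD b).U * (![-H0, H1] : Fin 2 → A P) b) := by
    refine ⟨fun b => ?_, ?_⟩
    · fin_cases b
      · exact hGa.add (((DD 0).U_N.mul hH0.neg).cast (by omega) (by omega))
      · exact hGb.add (((DD 1).U_N.mul hH1).cast (by omega) (by omega))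
    · simp only [map_add, map_mul, map_pow, io_U, th_U, Matrix.cons_val_zero,
        Matrix.cons_val_one, map_neg] at eG' ⊢
      linear_combination eG'
  set G1 : Fin 2 → A P :=
    fun b => (![Ga, Gb] : Fin 2 → A P) b + (DD b).U * (![-H0, H1] : Fin 2 → A P) b with hG1
  have h3 : eval ![ev' v y (DD b).K, ev' v y (DD b).del] (ev v y (G1 b)) = 1 := by
    rw [eval_ev, hG1]
    simp only [map_add, map_mul, Datum.pi_U, zero_mul, add_zero]
    rw [← e']
    fin_cases b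
    · simp only [Fin.zero_eta, Matrix.cons_val_zero, ea]
    · simp only [Fin.mk_one, Matrix.cons_val_one, Matrix.cons_val_zero, eb]
  have hcop : IsCoprime (ev' v y (DD b).K) (ev' v y (DD b).del) := by
    obtain ⟨g0, hh, -, -, e0⟩ := (DD b).step 0 1 (g := X a ^ 6) (isHomogeneous_X_pow _ _)
    have := congrArg (ev' v y) e0
    simp only [map_add, map_mul, map_pow, ev'_X, hv] at this
    exact ⟨ev' v y g0, ev' v y hh, by linear_combination -this⟩
  set r := eval ![ev' v y (DD b).K, ev' v y (DD b).del] R with hr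
  have h4 : (R - C r * ev v y (G1 b)).IsHomogeneous (m + 1) :=
    hR.sub ((ev_hom v y (h2.1 b)).C_mul _)
  obtain ⟨R', hR', eR⟩ := div_lin hcop h4 (by
    rw [map_sub, map_mul, h3, eval_C]; ring)
  obtain ⟨G2, hG2, eG2⟩ := h a b v y hv (-R') hR'.neg
  refine ⟨_, (h2.smul r).add hG2.U_mul, ?_⟩
  simp only [map_add, map_mul, ev_C, ev'_C, Polynomial.eval_C, eG2]
  simp only [Datum.U, map_sub, map_mul, ev_C, ev_X]
  simp only [lin] at eR
  linear_combination -eR

lemma GG_both (m : ℕ) : GG m 0 4 ∧ GG m 2 0 := by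
  induction m with
  | zero => exact ⟨GG_zero _ _, GG_zero _ _⟩
  | succ m ih =>
    exact ⟨GG_W (c := 0) (d := 0) (V_both m).2 ih.2, GG_U (c := 0) (d := 0) (V_both m).1 ih.1⟩

end Crest.Agent.R258
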