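import Crest.Agent.R258.Div

/-!
The explicit polynomials of the example.
-/

set_option autoImplicit false

open MvPolynomial

namespace Crest.Agent.R258

section data

variable {R : Type} [CommRing R]

def z0 (y : R) : R := 2 + 3 * y ^ 2
def z1 (y : R) : R := 5 * y
def z2 (y : R) : R := -1 + 6 * y ^ 2
def w0 (y : R) : R := 3 + 2 * y ^ 2
def w2 (y : R) : R := 6 - y ^ 2

def k0 (y : R) : R := 759375 - 357210 * y ^ 2
def k1 (y : R) : R := -6736446 * y + 214326 * y ^ 3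
def k2 (y : R) : R := 2022732 + 40173003 * y ^ 2
def k3 (y : R) : R := -44574462 * y - 21791268 * y ^ 3
def k4 (y : R) : R := 12150000 + 18159390 * y ^ 2

def l0 (y : R) : R := 150000 - 24910 * y ^ 2
def l1 (y : R) : R := -183434 * y + 9964 * y ^ 3
def l2 (y : R) : R := -24972 + 55107 * y ^ 2
def l3 (y : R) : R := 27722 * y + 98 * y ^ 3
def l4 (y : R) : R := 9375 + 490 * y ^ 2

def e0 (y : R) : R :=
  4982 - 108 * y ^ 2 - 648 * y ^ 4 - 3888 * y ^ 6 - 23328 * y ^ 8 + 11907 * y ^ 10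
def e1 (y : R) : R := 2766 * y - 864 * y ^ 3 - 1944 * y ^ 5 + 7776 * y ^ 7 + 224046 * y ^ 9
def e2 (y : R) : R :=
  49 + 864 * y ^ 2 - 1296 * y ^ 4 + 1944 * y ^ 6 - 2916 * y ^ 8 - 1210626 * y ^ 10

/-- value of the quartic form `K` of the first chart -/
def Kf (x0 x1 y : R) : R :=
  k0 y * x0 ^ 4 + k1 y * x0 ^ 3 * x1 + k2 y * x0 ^ 2 * x1 ^ 2 + k3 y * x0 * x1 ^ 3 + k4 y * x1 ^ 4
/-- value of the quartic form `K` of the second chart -/
def Lf (x0 x1 y : R) : R :=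
  l0 y * x0 ^ 4 + l1 y * x0 ^ 3 * x1 + l2 y * x0 ^ 2 * x1 ^ 2 + l3 y * x0 * x1 ^ 3 + l4 y * x1 ^ 4
/-- value of the extension form -/
def Ef (x0 x1 y : R) : R := e0 y * x0 ^ 2 + e1 y * x0 * x1 + e2 y * x1 ^ 2
/-- equation of the curve, first chart -/
def Df (x0 x1 y : R) : R := (z0 y * x1 - z1 y * x0) * (z1 y * x1 - z2 y * x0)
/-- equation of the curve, second chart -/
def Dg (x0 x1 y : R) : R := (w0 y * x1 - z1 y * x0) * (z1 y * x1 - w2 y * x0)

lemma Kf_01 (y : R) : Kf (z0 y) (z1 y) y = 12150000 := by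
  simp only [Kf, z0, z1, k0, k1, k2, k3, k4]; ring
lemma Kf_12 (y : R) : Kf (z1 y) (z2 y) y = 12150000 := by
  simp only [Kf, z1, z2, k0, k1, k2, k3, k4]; ring
lemma Lf_01 (y : R) : Lf (w0 y) (z1 y) y = 12150000 := by
  simp only [Lf, w0, z1, l0, l1, l2, l3, l4]; ring
lemma Lf_12 (y : R) : Lf (z1 y) (w2 y) y = 12150000 := by
  simp only [Lf, z1, w2, l0, l1, l2, l3, l4]; ring

lemma Dg_eq (x0 x1 y v : R) (h : y * v = 1) : Dg x0 x1 v = v ^ 4 * Df x0 x1 y := by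
  have h0 : w0 v = v ^ 2 * z0 y := by
    simp only [w0, z0]; linear_combination (-3 * (y * v + 1)) * h
  have h1 : z1 v = v ^ 2 * z1 y := by
    simp only [z1]; linear_combination (-5 * v) * h
  have h2 : w2 v = v ^ 2 * z2 y := by
    simp only [w2, z2]; linear_combination (-6 * (y * v + 1)) * h
  simp only [Dg, Df, h0, h1, h2]; ring

lemma Lf_eq (x0 x1 y v : R) (h : y * v = 1) :
    Lf x0 x1 v = y ^ 8 * (Kf x0 x1 y + v ^ 11 * Ef x0 x1 y * Df x0 x1 y) := by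
  have key : (-24910 * y + 150000 * y ^ 3) * x0 ^ 4 + (9964 - 183434 * y ^ 2) * x0 ^ 3 * x1 +
      (55107 * y - 24972 * y ^ 3) * x0 ^ 2 * x1 ^ 2 + (98 + 27722 * y ^ 2) * x0 * x1 ^ 3 +
      (490 * y + 9375 * y ^ 3) * x1 ^ 4 = y ^ 11 * Kf x0 x1 y + Ef x0 x1 y * Df x0 x1 y := by
    simp only [Kf, Ef, Df, z0, z1, z2, k0, k1, k2, k3, k4, e0, e1, e2]; ring
  have h3 : y ^ 3 * v ^ 3 = 1 := by rw [← mul_pow, h, one_pow]
  have h2 : y ^ 2 * v ^ 2 = 1 := by rw [← mul_pow, h, one_pow]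
  have h8 : y ^ 8 * v ^ 8 = 1 := by rw [← mul_pow, h, one_pow]
  have e : Lf x0 x1 v = v ^ 3 * ((-24910 * y + 150000 * y ^ 3) * x0 ^ 4 +
      (9964 - 183434 * y ^ 2) * x0 ^ 3 * x1 +
      (55107 * y - 24972 * y ^ 3) * x0 ^ 2 * x1 ^ 2 + (98 + 27722 * y ^ 2) * x0 * x1 ^ 3 +
      (490 * y + 9375 * y ^ 3) * x1 ^ 4) := by
    simp only [Lf, l0, l1, l2, l3, l4]
    linear_combination
      (-(150000 * x0 ^ 4 - 24972 * x0 ^ 2 * x1 ^ 2 + 9375 * x1 ^ 4)) * h3 +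
      (-(v ^ 2) * (-24910 * x0 ^ 4 + 55107 * x0 ^ 2 * x1 ^ 2 + 490 * x1 ^ 4)) * h +
      (-v * (-183434 * x0 ^ 3 * x1 + 27722 * x0 * x1 ^ 3)) * h2
  rw [e, key]
  linear_combination (y ^ 8 * Kf x0 x1 y) * h3 - (v ^ 3 * Ef x0 x1 y * Df x0 x1 y) * h8

section maps

variable {R' : Type} [CommRing R'] (f : R →+* R')

lemma map_z0 (y : R) : f (z0 y) = z0 (f y) := by simp [z0, map_ofNat]
lemma map_z1 (y : R) : f (z1 y) = z1 (f y) := by simp [z1, map_ofNat]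
lemma map_z2 (y : R) : f (z2 y) = z2 (f y) := by simp [z2, map_ofNat]
lemma map_w0 (y : R) : f (w0 y) = w0 (f y) := by simp [w0, map_ofNat]
lemma map_w2 (y : R) : f (w2 y) = w2 (f y) := by simp [w2, map_ofNat]

lemma map_Kf (x0 x1 y : R) : f (Kf x0 x1 y) = Kf (f x0) (f x1) (f y) := by
  simp [Kf, k0, k1, k2, k3, k4, map_ofNat]
lemma map_Lf (x0 x1 y : R) : f (Lf x0 x1 y) = Lf (f x0) (f x1) (f y) := by
  simp [Lf, l0, l1, l2, l3, l4, map_ofNat]
lemma map_Ef (x0 x1 y : R) : f (Ef x0 x1 y) = Ef (f x0) (f x1) (f y) := by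
  simp [Ef, e0, e1, e2, map_ofNat]
lemma map_Df (x0 x1 y : R) : f (Df x0 x1 y) = Df (f x0) (f x1) (f y) := by
  simp [Df, map_z0, map_z1, map_z2]
lemma map_Dg (x0 x1 y : R) : f (Dg x0 x1 y) = Dg (f x0) (f x1) (f y) := by
  simp [Dg, map_w0, map_z1, map_w2]

end maps

lemma quartic_hom (a b c d e : R) :
    (C a * X 0 ^ 4 + C b * X 0 ^ 3 * X 1 + C c * X 0 ^ 2 * X 1 ^ 2 + C d * X 0 * X 1 ^ 3 +
      C e * X 1 ^ 4 : S R).IsHomogeneous 4 := by
  have hx := fun (i : Fin 2) (n : ℕ) => isHomogeneous_X_pow (R := R) i n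
  have hcx := fun (r : R) (i : Fin 2) (n : ℕ) => isHomogeneous_C_mul_X_pow r i n
  refine ((((hcx a 0 4).add ?_).add ?_).add ?_).add (hcx e 1 4)
  · exact (hcx b 0 3).mul (isHomogeneous_X R 1)
  · exact (hcx c 0 2).mul (hx 1 2)
  · exact (isHomogeneous_C_mul_X d 0).mul (hx 1 3)

lemma Kf_hom (y : R) : (Kf (X 0) (X 1) (C y) : S R).IsHomogeneous 4 := by
  have := quartic_hom (k0 y) (k1 y) (k2 y) (k3 y) (k4 y)
  convert this using 1
  simp [Kf, k0, k1, k2, k3, k4, map_ofNat]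

lemma Lf_hom (y : R) : (Lf (X 0) (X 1) (C y) : S R).IsHomogeneous 4 := by
  have := quartic_hom (l0 y) (l1 y) (l2 y) (l3 y) (l4 y)
  convert this using 1
  simp [Lf, l0, l1, l2, l3, l4, map_ofNat]

lemma Ef_hom (y : R) : (Ef (X 0) (X 1) (C y) : S R).IsHomogeneous 2 := by
  have h : (C (e0 y) * X 0 ^ 2 + C (e1 y) * X 0 * X 1 + C (e2 y) * X 1 ^ 2 : S R).IsHomogeneous
      2 :=
    ((isHomogeneous_C_mul_X_pow _ _ _).add
      ((isHomogeneous_C_mul_X _ _).mul (isHomogeneous_X R 1))).add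
      (isHomogeneous_C_mul_X_pow _ _ _)
  convert h using 1
  simp [Ef, e0, e1, e2, map_ofNat]

variable [Algebra ℂ R]

lemma inv_nat (n : ℕ) (hn : n ≠ 0) : (n : R) * algebraMap ℂ R (n : ℂ)⁻¹ = 1 := by
  rw [← map_natCast (algebraMap ℂ R), ← map_mul, mul_inv_cancel₀ (by exact_mod_cast hn), map_one]

lemma coprime_of {a b u v : R} (n : ℕ) (hn : n ≠ 0) (h : u * a + v * b = n) : IsCoprime a b :=
  ⟨u * algebraMap ℂ R (n : ℂ)⁻¹, v * algebraMap ℂ R (n : ℂ)⁻¹, by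
    have := inv_nat (R := R) n hn
    linear_combination algebraMap ℂ R (n : ℂ)⁻¹ * h + this⟩

/-- The datum of the first chart. -/
noncomputable def D0 (y : R) : Datum R where
  z0 := z0 y
  z1 := z1 y
  z2 := z2 y
  K := Kf (X 0) (X 1) (C y)
  c := 12150000
  ci := algebraMap ℂ R ((12150000 : ℕ) : ℂ)⁻¹
  hK := Kf_hom y
  h01 := coprime_of (u := 5) (v := -3 * y) 10 (by norm_num) (by simp only [z0, z1]; push_cast; ring)
  h12 := coprime_of (u := 6 * y) (v := -5) 5 (by norm_num) (by simp only [z1, z2]; push_cast; ring)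
  hc := by simpa using inv_nat (R := R) 12150000 (by norm_num)
  hK1 := by rw [map_Kf]; simpa using Kf_01 y
  hK2 := by rw [map_Kf]; simpa using Kf_12 y

/-- The datum of the second chart. -/
noncomputable def D1 (y : R) : Datum R where
  z0 := w0 y
  z1 := z1 y
  z2 := w2 y
  K := Lf (X 0) (X 1) (C y)
  c := 12150000
  ci := algebraMap ℂ R ((12150000 : ℕ) : ℂ)⁻¹
  hK := Lf_hom y
  h01 := coprime_of (u := 5) (v := -2 * y) 15 (by norm_num) (by simp only [w0, z1]; push_cast; ring)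
  h12 := coprime_of (u := y) (v := 5) 30 (by norm_num) (by simp only [z1, w2]; push_cast; ring)
  hc := by simpa using inv_nat (R := R) 12150000 (by norm_num)
  hK1 := by rw [map_Lf]; simpa using Lf_01 y
  hK2 := by rw [map_Lf]; simpa using Lf_12 y

lemma D0_K (y : R) : (D0 y).K = Kf (X 0) (X 1) (C y) := rfl
lemma D1_K (y : R) : (D1 y).K = Lf (X 0) (X 1) (C y) := rfl

lemma D0_del (y : R) : (D0 y).del = Df (X 0) (X 1) (C y) := by
  simp [Datum.del, D0, Df, lin, map_z0, map_z1, map_z2]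

lemma D1_del (y : R) : (D1 y).del = Dg (X 0) (X 1) (C y) := by
  simp [Datum.del, D1, Dg, lin, map_w0, map_z1, map_w2]

end data

end Crest.Agent.R258
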