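import Mathlib

/-!
Binary forms: division by a unimodular linear form, and the bigraded pieces used for the
symmetric powers of the rank-two bundle of row 258.
-/

set_option autoImplicit false

open MvPolynomial

namespace Crest.Agent.R258

abbrev S (R : Type) [CommRing R] : Type := MvPolynomial (Fin 2) R

section forms

variable {R : Type} [CommRing R]

lemma hom_succ {g : S R} {n : ℕ} (hg : g.IsHomogeneous (n + 1)) :
    ∃ g0 g1 : S R, g0.IsHomogeneous n ∧ g1.IsHomogeneous n ∧ g = X 0 * g0 + X 1 * g1 := by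
  induction hg using IsWeightedHomogeneous.induction_on with
  | zero => exact ⟨0, 0, isHomogeneous_zero _ _ _, isHomogeneous_zero _ _ _, by simp⟩
  | add p q hp hq ihp ihq =>
    obtain ⟨p0, p1, hp0, hp1, rfl⟩ := ihp
    obtain ⟨q0, q1, hq0, hq1, rfl⟩ := ihq
    exact ⟨p0 + q0, p1 + q1, hp0.add hq0, hp1.add hq1, by ring⟩
  | monomial d r hr =>
    have hd : d 0 + d 1 = n + 1 := by
      have := hr
      rw [Finsupp.weight_apply, Finsupp.sum_fintype _ _ (by simp)] at this
      simpa [Fin.sum_univ_two] using this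
    have hm : (monomial d r : S R) = C r * X 0 ^ d 0 * X 1 ^ d 1 := by
      rw [monomial_eq, Finsupp.prod_fintype _ _ (by simp), Fin.prod_univ_two, mul_assoc]
    rcases Nat.eq_zero_or_pos (d 0) with h0 | h0
    · have h1 : d 1 = n + 1 := by omega
      refine ⟨0, C r * X 1 ^ n, isHomogeneous_zero _ _ _, isHomogeneous_C_mul_X_pow _ _ _, ?_⟩
      rw [hm, h0, h1]; ring
    · obtain ⟨k, hk⟩ : ∃ k, d 0 = k + 1 := ⟨d 0 - 1, by omega⟩
      refine ⟨C r * X 0 ^ k * X 1 ^ d 1, 0, ?_, isHomogeneous_zero _ _ _, ?_⟩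
      · have := (isHomogeneous_C_mul_X_pow r (0 : Fin 2) k).mul
          (isHomogeneous_X_pow (R := R) (1 : Fin 2) (d 1))
        rwa [show k + d 1 = n by omega] at this
      · rw [hm, hk]; ring

lemma hom_zero {g : S R} (hg : g.IsHomogeneous 0) : ∃ r : R, g = C r :=
  ⟨_, totalDegree_eq_zero_iff_eq_C.mp ((totalDegree_zero_iff_isHomogeneous _).mpr hg)⟩

/-- The linear form vanishing at `(z0, z1)`. -/
noncomputable def lin (z0 z1 : R) : S R := C z0 * X 1 - C z1 * X 0

lemma lin_hom (z0 z1 : R) : (lin z0 z1).IsHomogeneous 1 :=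
  (isHomogeneous_C_mul_X _ _).sub (isHomogeneous_C_mul_X _ _)

lemma eval_lin (z0 z1 w0 w1 : R) : eval ![w0, w1] (lin z0 z1) = z0 * w1 - z1 * w0 := by
  simp [lin]

lemma exists_lin_one {z0 z1 : R} (h : IsCoprime z0 z1) :
    ∃ L : S R, L.IsHomogeneous 1 ∧ eval ![z0, z1] L = 1 := by
  obtain ⟨u0, u1, hu⟩ := h
  exact ⟨C u0 * X 0 + C u1 * X 1,
    (isHomogeneous_C_mul_X _ _).add (isHomogeneous_C_mul_X _ _), by simpa using hu⟩

lemma div_lin_aux {z0 z1 u0 u1 : R} (hu : u0 * z0 + u1 * z1 = 1) (n : ℕ) :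
    ∀ g : S R, g.IsHomogeneous (n + 1) → ∃ (r : R) (g' : S R), g'.IsHomogeneous n ∧
      g = C r * (C u0 * X 0 + C u1 * X 1) ^ (n + 1) + lin z0 z1 * g' := by
  have hC : (C u0 * C z0 + C u1 * C z1 : S R) = 1 := by
    rw [← map_mul, ← map_mul, ← map_add, hu, map_one]
  have hL : (C u0 * X 0 + C u1 * X 1 : S R).IsHomogeneous 1 :=
    (isHomogeneous_C_mul_X _ _).add (isHomogeneous_C_mul_X _ _)
  induction n with
  | zero =>
    intro g hg
    obtain ⟨g0, g1, h0, h1, rfl⟩ := hom_succ hg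
    obtain ⟨r0, rfl⟩ := hom_zero h0
    obtain ⟨r1, rfl⟩ := hom_zero h1
    refine ⟨r0 * z0 + r1 * z1, C (r1 * u0 - r0 * u1), isHomogeneous_C _ _, ?_⟩
    simp only [lin, map_add, map_mul, map_sub]
    linear_combination (-(X 0 * C r0 + X 1 * C r1)) * hC
  | succ n ih =>
    intro g hg
    obtain ⟨g0, g1, h0, h1, rfl⟩ := hom_succ hg
    obtain ⟨r0, g0', h0', rfl⟩ := ih g0 h0
    obtain ⟨r1, g1', h1', rfl⟩ := ih g1 h1
    refine ⟨r0 * z0 + r1 * z1, C (r1 * u0 - r0 * u1) * (C u0 * X 0 + C u1 * X 1) ^ (n + 1) +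
      (X 0 * g0' + X 1 * g1'), ?_, ?_⟩
    · refine IsHomogeneous.add (IsHomogeneous.C_mul ?_ _) (IsHomogeneous.add ?_ ?_)
      · simpa using hL.pow (n + 1)
      · simpa [add_comm] using (isHomogeneous_X R (0 : Fin 2)).mul h0'
      · simpa [add_comm] using (isHomogeneous_X R (1 : Fin 2)).mul h1'
    · simp only [lin, map_add, map_mul, map_sub]
      linear_combination
        (-(X 0 * C r0 + X 1 * C r1) * (C u0 * X 0 + C u1 * X 1) ^ (n + 1)) * hC

lemma div_lin {z0 z1 : R} (h : IsCoprime z0 z1) {n : ℕ} {g : S R}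
    (hg : g.IsHomogeneous (n + 1)) (h0 : eval ![z0, z1] g = 0) :
    ∃ g' : S R, g'.IsHomogeneous n ∧ g = lin z0 z1 * g' := by
  obtain ⟨u0, u1, hu⟩ := h
  obtain ⟨r, g', hg', rfl⟩ := div_lin_aux hu n g hg
  have hr : r = 0 := by
    have h1 : eval ![z0, z1] (C u0 * X 0 + C u1 * X 1 : S R) = 1 := by simpa using hu
    rw [map_add, map_mul, map_mul, map_pow, h1, eval_lin, eval_C] at h0
    simpa [mul_comm] using h0
  exact ⟨g', hg', by simp [hr]⟩

end forms

abbrev A (R : Type) [CommRing R] : Type := MvPolynomial (Fin 2) (S R)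

/-- The bigraded piece: sums of `g * τ ^ u * W ^ j` with `u + j = m` and `g` a form of degree
`c + 2 j`. -/
inductive N {R : Type} [CommRing R] (m c : ℕ) : A R → Prop
  | zero : N m c 0
  | add {G G' : A R} : N m c G → N m c G' → N m c (G + G')
  | gen (u j : ℕ) (g : S R) (h : u + j = m) (hg : g.IsHomogeneous (c + 2 * j)) :
      N m c (C g * X 0 ^ u * X 1 ^ j)

namespace N

variable {R : Type} [CommRing R]

lemma cast {m c m' c' : ℕ} {G : A R} (h : N m c G) (hm : m = m') (hc : c = c') : N m' c' G := by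
  subst hm hc; exact h

lemma C_mul {m c d : ℕ} {G : A R} (h : N m c G) {g : S R} (hg : g.IsHomogeneous d) :
    N m (d + c) (C g * G) := by
  induction h with
  | zero => simpa using N.zero
  | add _ _ ih ih' => rw [mul_add]; exact ih.add ih'
  | gen u j g' h hg' =>
    have := N.gen (m := m) (c := d + c) u j (g * g') h (by simpa [add_assoc] using hg.mul hg')
    simpa [mul_assoc] using this

lemma CC_mul {m c : ℕ} {G : A R} (h : N m c G) (r : R) : N m c (C (C r) * G) := by
  simpa using h.C_mul (isHomogeneous_C (Fin 2) r)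

lemma neg {m c : ℕ} {G : A R} (h : N m c G) : N m c (-G) := by
  have := h.CC_mul (-1)
  rw [map_neg, map_neg, map_one, map_one] at this
  convert this using 1
  ring

lemma sub {m c : ℕ} {G G' : A R} (h : N m c G) (h' : N m c G') : N m c (G - G') := by
  rw [sub_eq_add_neg]; exact h.add h'.neg

lemma mul {m c m' c' : ℕ} {G G' : A R} (h : N m c G) (h' : N m' c' G') :
    N (m + m') (c + c') (G * G') := by
  induction h with
  | zero => simpa using N.zero
  | add _ _ ih ih' => rw [add_mul]; exact ih.add ih'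
  | gen u j g h hg =>
    induction h' with
    | zero => simpa using N.zero
    | add _ _ ih ih' => rw [mul_add]; exact ih.add ih'
    | gen u' j' g' h' hg' =>
      have := N.gen (m := m + m') (c := c + c') (u + u') (j + j') (g * g') (by omega)
        (by have := hg.mul hg'; convert this using 1; ring)
      convert this using 1
      rw [map_mul]; ring

lemma ofC {c : ℕ} {g : S R} (hg : g.IsHomogeneous c) : N 0 c (C g : A R) := by
  simpa using N.gen (m := 0) (c := c) 0 0 g rfl (by simpa using hg)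

lemma one : N 0 0 (1 : A R) := by
  simpa using ofC (isHomogeneous_one (Fin 2) R)

lemma C_X0_pow {c : ℕ} {g : S R} (hg : g.IsHomogeneous c) (m : ℕ) :
    N m c (C g * X 0 ^ m : A R) := by
  simpa using N.gen (m := m) (c := c) m 0 g rfl (by simpa using hg)

lemma X0 : N 1 0 (X 0 : A R) := by
  simpa using C_X0_pow (isHomogeneous_one (Fin 2) R) 1

lemma pow {G : A R} (h : N 1 0 G) (k : ℕ) : N k 0 (G ^ k) := by
  induction k with
  | zero => simpa using one
  | succ k ih => rw [pow_succ]; exact ih.mul h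

lemma X1_mul {m c : ℕ} {G : A R} (h : N m (c + 2) G) : N (m + 1) c (X 1 * G) := by
  induction h with
  | zero => simpa using N.zero
  | add _ _ ih ih' => rw [mul_add]; exact ih.add ih'
  | gen u j g h hg =>
    have := N.gen (m := m + 1) (c := c) u (j + 1) g (by omega) (by convert hg using 1; ring)
    convert this using 1
    ring

lemma decomp {m c : ℕ} {G : A R} (h : N (m + 1) c G) :
    ∃ (g0 : S R) (G' : A R), g0.IsHomogeneous c ∧ N m (c + 2) G' ∧
      G = C g0 * X 0 ^ (m + 1) + X 1 * G' := by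
  induction h with
  | zero => exact ⟨0, 0, isHomogeneous_zero _ _ _, N.zero, by simp⟩
  | add _ _ ih ih' =>
    obtain ⟨g0, G0, h0, H0, rfl⟩ := ih
    obtain ⟨g1, G1, h1, H1, rfl⟩ := ih'
    exact ⟨g0 + g1, G0 + G1, h0.add h1, H0.add H1, by rw [map_add]; ring⟩
  | gen u j g h hg =>
    rcases j with _ | j
    · refine ⟨g, 0, by simpa using hg, N.zero, ?_⟩
      have : u = m + 1 := by omega
      simp [this]
    · refine ⟨0, C g * X 0 ^ u * X 1 ^ j, isHomogeneous_zero _ _ _,
        N.gen u j g (by omega) (by convert hg using 1; ring), ?_⟩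
      rw [map_zero]; ring

lemma decomp_zero {c : ℕ} {G : A R} (h : N 0 c G) : ∃ g : S R, g.IsHomogeneous c ∧ G = C g := by
  induction h with
  | zero => exact ⟨0, isHomogeneous_zero _ _ _, by simp⟩
  | add _ _ ih ih' =>
    obtain ⟨g0, h0, rfl⟩ := ih
    obtain ⟨g1, h1, rfl⟩ := ih'
    exact ⟨g0 + g1, h0.add h1, by rw [map_add]⟩
  | gen u j g h hg =>
    obtain ⟨rfl, rfl⟩ : u = 0 ∧ j = 0 := by omega
    exact ⟨g, by simpa using hg, by simp⟩

lemma map {R' : Type} [CommRing R'] (f : R →+* R') {m c : ℕ} {G : A R} (h : N m c G) :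
    N m c (MvPolynomial.map (MvPolynomial.map f) G) := by
  induction h with
  | zero => simpa using N.zero
  | add _ _ ih ih' => rw [map_add]; exact ih.add ih'
  | gen u j g h hg =>
    simpa using N.gen (m := m) (c := c) u j (MvPolynomial.map f g) h (hg.map f)

lemma isHomogeneous {m c : ℕ} {G : A R} (h : N m c G) : G.IsHomogeneous m := by
  induction h with
  | zero => exact isHomogeneous_zero _ _ _
  | add _ _ ih ih' => exact ih.add ih'
  | gen u j g h hg =>
    rw [← h]
    exact (isHomogeneous_C_mul_X_pow g (0 : Fin 2) u).mul (isHomogeneous_X_pow (1 : Fin 2) j)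

end N

/-- The data of a curve that is a union of two graphs and of a trivialisation along it. -/
structure Datum (R : Type) [CommRing R] : Type where
  z0 : R
  z1 : R
  z2 : R
  K : S R
  c : R
  ci : R
  hK : K.IsHomogeneous 4
  h01 : IsCoprime z0 z1
  h12 : IsCoprime z1 z2
  hc : c * ci = 1
  hK1 : eval ![z0, z1] K = c
  hK2 : eval ![z1, z2] K = c

namespace Datum

variable {R : Type} [CommRing R] (D : Datum R)

noncomputable def del : S R := lin D.z0 D.z1 * lin D.z1 D.z2

noncomputable def U : A R := C D.del * X 0 - C D.K * X 1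

noncomputable def pi : A R →+* S R := eval ![D.K, D.del]

lemma del_hom : D.del.IsHomogeneous 2 := (lin_hom _ _).mul (lin_hom _ _)

lemma pi_C (g : S R) : D.pi (C g) = g := by simp [pi]
lemma pi_X0 : D.pi (X 0) = D.K := by simp [pi]
lemma pi_X1 : D.pi (X 1) = D.del := by simp [pi]

lemma pi_U : D.pi D.U = 0 := by
  simp only [U, map_sub, map_mul, pi_C, pi_X0, pi_X1]; ring

lemma U_N : N 1 2 D.U := by
  refine N.sub ?_ ?_
  · simpa using N.C_X0_pow D.del_hom 1
  · simpa using N.gen (m := 1) (c := 2) 0 1 D.K rfl D.hK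

lemma pi_hom {m c : ℕ} {G : A R} (h : N m c G) : (D.pi G).IsHomogeneous (4 * m + c) := by
  induction h with
  | zero => simpa using isHomogeneous_zero _ _ _
  | add _ _ ih ih' => rw [map_add]; exact ih.add ih'
  | gen u j g h hg =>
    simp only [map_mul, map_pow, pi_C, pi_X0, pi_X1]
    have := (hg.mul (D.hK.pow u)).mul (D.del_hom.pow j)
    convert this using 1
    rw [← h]; ring

lemma step (m c : ℕ) {g : S R} (hg : g.IsHomogeneous (4 * (m + 1) + (c + 1))) :
    ∃ g0 h : S R, g0.IsHomogeneous (c + 1) ∧ h.IsHomogeneous (4 * m + (c + 3)) ∧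
      g = g0 * D.K ^ (m + 1) + D.del * h := by
  obtain ⟨L1, hL1, eL1⟩ := exists_lin_one D.h01
  obtain ⟨L2, hL2, eL2⟩ := exists_lin_one D.h12
  have hcc : D.ci ^ (m + 1) * D.c ^ (m + 1) = 1 := by
    rw [← mul_pow, mul_comm, D.hc, one_pow]
  set r1 := eval ![D.z0, D.z1] g * D.ci ^ (m + 1) with hr1
  have h1 : (g - C r1 * L1 ^ (c + 1) * D.K ^ (m + 1)).IsHomogeneous (4 * m + (c + 4) + 1) := by
    refine IsHomogeneous.sub (by convert hg using 1; ring) ?_
    have := ((hL1.pow (c + 1)).C_mul r1).mul (D.hK.pow (m + 1))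
    convert this using 1; ring
  obtain ⟨g1, hg1, e1⟩ := div_lin D.h01 h1 (by
    simp only [map_sub, map_mul, map_pow, eval_C, eL1, D.hK1, hr1]
    linear_combination (-(eval ![D.z0, D.z1] g)) * hcc)
  set r2 := eval ![D.z1, D.z2] g1 * D.ci ^ (m + 1) with hr2
  have h2 : (g1 - C r2 * L2 ^ c * D.K ^ (m + 1)).IsHomogeneous (4 * m + (c + 3) + 1) := by
    refine IsHomogeneous.sub hg1 ?_
    have := ((hL2.pow c).C_mul r2).mul (D.hK.pow (m + 1))
    convert this using 1; ring
  obtain ⟨h, hh, e2⟩ := div_lin D.h12 h2 (by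
    simp only [map_sub, map_mul, map_pow, eval_C, eL2, D.hK2, hr2]
    linear_combination (-(eval ![D.z1, D.z2] g1)) * hcc)
  refine ⟨C r1 * L1 ^ (c + 1) + lin D.z0 D.z1 * (C r2 * L2 ^ c), h, ?_, hh, ?_⟩
  · refine IsHomogeneous.add (by simpa using (hL1.pow (c + 1)).C_mul r1) ?_
    have := (lin_hom D.z0 D.z1).mul ((hL2.pow c).C_mul r2)
    convert this using 1; ring
  · rw [del]
    linear_combination e1 + lin D.z0 D.z1 * e2

lemma surj (m : ℕ) : ∀ (c : ℕ) {g : S R}, g.IsHomogeneous (4 * m + (c + 1)) →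
    ∃ G : A R, N m (c + 1) G ∧ D.pi G = g := by
  induction m with
  | zero => exact fun c g hg => ⟨C g, N.ofC (by simpa using hg), D.pi_C g⟩
  | succ m ih =>
    intro c g hg
    obtain ⟨g0, h, hg0, hh, rfl⟩ := D.step m c hg
    obtain ⟨H, hH, rfl⟩ := ih (c + 2) hh
    refine ⟨C g0 * X 0 ^ (m + 1) + X 1 * H, (N.C_X0_pow hg0 _).add (N.X1_mul hH), ?_⟩
    simp only [map_add, map_mul, map_pow, pi_C, pi_X0, pi_X1]

lemma ker_reduce [IsDomain R] (hρ : D.z0 * D.z2 - D.z1 * D.z1 ≠ 0) {m c : ℕ} {G : A R}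
    (hG : N (m + 1) (c + 2) G) (h0 : D.pi G = 0) :
    ∃ (g2 : S R) (G'' : A R), g2.IsHomogeneous c ∧ N m (c + 4) G'' ∧ D.pi G'' = 0 ∧
      G = D.U * (C g2 * X 0 ^ m) + X 1 * G'' := by
  obtain ⟨g0, G', hg0, hG', rfl⟩ := hG.decomp
  have hcne : D.c ≠ 0 := left_ne_zero_of_mul_eq_one D.hc
  have hl1 : lin D.z0 D.z1 ≠ 0 := by
    intro h
    have := eval_lin D.z0 D.z1 D.z1 D.z2
    rw [h, map_zero] at this
    exact hρ this.symm
  have hl2 : lin D.z1 D.z2 ≠ 0 := by
    intro h
    have := eval_lin D.z1 D.z2 D.z0 D.z1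
    rw [h, map_zero] at this
    exact hρ (by linear_combination this)
  simp only [map_add, map_mul, map_pow, pi_C, pi_X0, pi_X1] at h0
  have e1 : eval ![D.z0, D.z1] g0 = 0 := by
    have := congrArg (eval ![D.z0, D.z1]) h0
    simp only [map_add, map_mul, map_pow, del, eval_lin, D.hK1, map_zero] at this
    have h2 : eval ![D.z0, D.z1] g0 * D.c ^ (m + 1) = 0 := by linear_combination this
    exact (mul_eq_zero.mp h2).resolve_right (pow_ne_zero _ hcne)
  obtain ⟨g1, hg1, rfl⟩ := div_lin D.h01 hg0 e1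
  have h1 : g1 * D.K ^ (m + 1) + lin D.z1 D.z2 * D.pi G' = 0 := by
    apply mul_left_cancel₀ hl1
    rw [del] at h0
    linear_combination h0
  have e2 : eval ![D.z1, D.z2] g1 = 0 := by
    have := congrArg (eval ![D.z1, D.z2]) h1
    simp only [map_add, map_mul, map_pow, eval_lin, D.hK2, map_zero] at this
    have h2 : eval ![D.z1, D.z2] g1 * D.c ^ (m + 1) = 0 := by linear_combination this
    exact (mul_eq_zero.mp h2).resolve_right (pow_ne_zero _ hcne)
  obtain ⟨g2, hg2, rfl⟩ := div_lin D.h12 hg1 e2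
  refine ⟨g2, G' + C (g2 * D.K) * X 0 ^ m, hg2, ?_, ?_, ?_⟩
  · exact N.add hG' (N.C_X0_pow (hg2.mul D.hK) m)
  · simp only [map_add, map_mul, map_pow, pi_C, pi_X0]
    apply mul_left_cancel₀ hl2
    linear_combination h1
  · simp only [U, del, map_mul]
    ring

lemma ker [IsDomain R] (hρ : D.z0 * D.z2 - D.z1 * D.z1 ≠ 0) (m : ℕ) :
    ∀ (c : ℕ) {G : A R}, N (m + 1) (c + 2) G → D.pi G = 0 → ∃ G', N m c G' ∧ G = D.U * G' := by
  induction m with
  | zero =>
    intro c G hG h0
    obtain ⟨g2, G'', hg2, hG'', h0'', rfl⟩ := D.ker_reduce hρ hG h0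
    obtain ⟨h, -, rfl⟩ := hG''.decomp_zero
    rw [pi_C] at h0''
    subst h0''
    exact ⟨C g2 * X 0 ^ 0, N.C_X0_pow hg2 0, by simp⟩
  | succ m ih =>
    intro c G hG h0
    obtain ⟨g2, G'', hg2, hG'', h0'', rfl⟩ := D.ker_reduce hρ hG h0
    obtain ⟨G3, hG3, rfl⟩ := ih (c + 2) hG'' h0''
    exact ⟨C g2 * X 0 ^ (m + 1) + X 1 * G3, (N.C_X0_pow hg2 _).add (N.X1_mul hG3), by ring⟩

end Datum

end Crest.Agent.R258
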