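import Crest.Agent.R258.Form

/-!
The limit form cannot exist.
-/

set_option autoImplicit false

open Complex Filter Topology Set Matrix Crest.AlgGeometry.QuadricBundle

namespace Crest.Agent.R258

lemma cvx_affine {S : Set ℝ} {f g : ℝ → ℝ} {a : ℝ}
    (h : ∀ r : ℝ, ConvexOn ℝ S (fun s => a + 2 * r * f s + r ^ 2 * g s))
    {x y p q : ℝ} (hx : x ∈ S) (hy : y ∈ S) (hp : 0 ≤ p) (hq : 0 ≤ q) (hpq : p + q = 1) :
    f (p * x + q * y) = p * f x + q * f y := by
  have := discrim_le_zero (a := p * g x + q * g y - g (p * x + q * y))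
    (b := 2 * (p * f x + q * f y - f (p * x + q * y))) (c := 0) fun r => by
      have h1 := (h r).2 hx hy hp hq hpq
      simp only [smul_eq_mul] at h1
      have h2 : p * a + q * a = a := by rw [← add_mul, hpq, one_mul]
      nlinarith
  rw [discrim] at this
  nlinarith [sq_nonneg (p * f x + q * f y - f (p * x + q * y))]

lemma aff_repr {f : ℝ → ℝ}
    (h : ∀ x y p q : ℝ, x ≤ 0 → y ≤ 0 → 0 ≤ p → 0 ≤ q → p + q = 1 →
      f (p * x + q * y) = p * f x + q * f y) (s : ℝ) (hs : s ≤ 0) :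
    f s = f 0 + (f 0 - f (-1)) * s := by
  rcases le_total s (-1) with h1 | h1
  · have hs0 : s ≠ 0 := by linarith
    have := h s 0 (-1 / s) (1 + 1 / s) hs le_rfl (div_nonneg_of_nonpos (by norm_num) hs)
      (by
        have : -1 ≤ 1 / s := by
          rw [le_div_iff_of_neg (by linarith)]; linarith
        linarith) (by ring)
    have e : -1 / s * s + (1 + 1 / s) * 0 = -1 := by field_simp; ring
    rw [e] at this
    rw [this]; field_simp; ring
  · have := h (-1) 0 (-s) (1 + s) (by norm_num) le_rfl (by linarith) (by linarith) (by ring)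
    have e : -s * -1 + (1 + s) * 0 = s := by ring
    rw [e] at this
    rw [this]; ring

lemma lin_tendsto {α β : ℝ} (h : Tendsto (fun s : ℝ => α + β * s) atBot (𝓝 0)) :
    α = 0 ∧ β = 0 := by
  have h1 : Tendsto (fun s : ℝ => α + β * (s + -1)) atBot (𝓝 0) :=
    h.comp (tendsto_atBot_add_const_right _ _ tendsto_id)
  have h2 := h.sub h1
  have h3 : (fun s : ℝ => α + β * s - (α + β * (s + -1))) = fun _ => β := by
    funext s; ring
  rw [h3, sub_zero, tendsto_const_nhds_iff] at h2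
  subst h2
  simpa using h

lemma tendsto_exp_lin (c a b : ℝ) (hc : 0 < c) :
    Tendsto (fun s : ℝ => Real.exp (c * s) * (a + b * s)) atBot (𝓝 0) := by
  have h0 : Tendsto (fun s : ℝ => -(c * s)) atBot atTop :=
    tendsto_neg_atBot_atTop.comp (tendsto_id.const_mul_atBot hc)
  have h1 := (Real.tendsto_pow_mul_exp_neg_atTop_nhds_zero 1).comp h0
  have h2 := (Real.tendsto_pow_mul_exp_neg_atTop_nhds_zero 0).comp h0
  have h3 := (h2.const_mul a).add (h1.const_mul (-b / c))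
  simp only [mul_zero, add_zero] at h3
  refine h3.congr fun s => ?_
  simp only [Function.comp_apply, neg_neg]
  field_simp

lemma exp_lin_indep (L : ℕ) : ∀ a b : ℕ → ℝ,
    (∀ s : ℝ, s ≤ 0 → ∑ l ∈ Finset.range L, Real.exp (2 * l * s) * (a l + b l * s) = 0) →
    ∀ l < L, a l = 0 ∧ b l = 0 := by
  induction L with
  | zero => intro a b _ l hl; omega
  | succ L ih =>
    intro a b h
    have h0 : a 0 = 0 ∧ b 0 = 0 := by
      apply lin_tendsto
      have h1 : Tendsto (fun s : ℝ => -∑ l ∈ Finset.range L,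
          Real.exp (2 * ((l + 1 : ℕ) : ℝ) * s) * (a (l + 1) + b (l + 1) * s)) atBot (𝓝 (-0)) := by
        refine Tendsto.neg ?_
        have := tendsto_finsetSum (Finset.range L) fun l _ =>
          tendsto_exp_lin (2 * ((l + 1 : ℕ) : ℝ)) (a (l + 1)) (b (l + 1)) (by positivity)
        simpa using this
      rw [neg_zero] at h1
      refine h1.congr' ?_
      filter_upwards [eventually_le_atBot 0] with s hs
      have := h s hs
      rw [Finset.sum_range_succ'] at this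
      simp only [Nat.cast_zero, mul_zero, zero_mul, Real.exp_zero, one_mul] at this
      linarith
    have h1 := ih (fun l => a (l + 1)) (fun l => b (l + 1)) fun s hs => by
      have := h s hs
      rw [Finset.sum_range_succ', h0.1, h0.2] at this
      simp only [zero_mul, add_zero, mul_zero] at this
      have e : ∑ l ∈ Finset.range L,
          Real.exp (2 * ((l + 1 : ℕ) : ℝ) * s) * (a (l + 1) + b (l + 1) * s) =
          Real.exp (2 * s) * ∑ l ∈ Finset.range L,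
            Real.exp (2 * l * s) * (a (l + 1) + b (l + 1) * s) := by
        rw [Finset.mul_sum]
        refine Finset.sum_congr rfl fun l _ => ?_
        rw [← mul_assoc, ← Real.exp_add]
        congr 2
        push_cast; ring
      rw [e] at this
      exact (mul_eq_zero.mp this).resolve_left (Real.exp_pos _).ne'
    intro l hl
    rcases l with _ | l
    · exact h0
    · exact h1 l (by omega)

lemma zero_of_aff {f : ℝ → ℝ} {C : ℝ}
    (h : ∀ x y p q : ℝ, x ≤ 0 → y ≤ 0 → 0 ≤ p → 0 ≤ q → p + q = 1 →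
      f (p * x + q * y) = p * f x + q * f y)
    (hb : ∀ s ≤ 0, f s ^ 2 ≤ Real.exp (2 * s) * C) : f 0 = 0 := by
  have h1 : Tendsto (fun s => f s ^ 2) atBot (𝓝 0) := by
    have h2 := tendsto_exp_lin 2 C 0 two_pos
    simp only [zero_mul, add_zero] at h2
    refine tendsto_of_tendsto_of_tendsto_of_le_of_le' tendsto_const_nhds h2
      (Eventually.of_forall fun s => sq_nonneg _) ?_
    filter_upwards [eventually_le_atBot 0] with s hs using hb s hs
  have h3 : Tendsto f atBot (𝓝 0) := by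
    rw [tendsto_zero_iff_abs_tendsto_zero]
    have := (Real.continuous_sqrt.tendsto 0).comp h1
    simpa [Function.comp_def, Real.sqrt_sq_eq_abs] using this
  refine (lin_tendsto (β := f 0 - f (-1)) (h3.congr' ?_)).1
  filter_upwards [eventually_le_atBot 0] with s hs using aff_repr h s hs

/-- the section spanning the second sub-bundle -/
noncomputable def sec2 : Sec := ![Kf 1 (xp 1) (yp 1), Df 1 (xp 1) (yp 1)]

lemma val_sec2 (a b : ℂ) : val sec2 (a, b) = ![Kf 1 (exp a) (exp b), Df 1 (exp a) (exp b)] := by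
  funext i
  rcases fin2_cases i with rfl | rfl
  · simp [val, sec2, map_Kf, evG_xp, evG_yp]
  · simp [val, sec2, map_Df, evG_xp, evG_yp]

lemma bdd_disc {F : ℂ → Vec} (hF : Continuous F) : ∃ C, ∀ z : ℂ, ‖z‖ ≤ 1 → ‖F z‖ ≤ C := by
  obtain ⟨C, hC⟩ := (isCompact_closedBall (0 : ℂ) 1).exists_bound_of_continuousOn hF.continuousOn
  exact ⟨C, fun z hz => hC z (by simpa using hz)⟩

lemma BY0_sec2 : BY0 sec2 := by
  intro a
  obtain ⟨C, hC⟩ := bdd_disc (F := fun z => ![Kf 1 (exp a) z, Df 1 (exp a) z]) (by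
    refine continuous_pi fun i => ?_
    rcases fin2_cases i with rfl | rfl
    · simp only [cons_val_zero, Kf, k0, k1, k2, k3, k4]; fun_prop
    · simp only [cons_val_one, cons_val_zero, Df, z0, z1, z2]; fun_prop)
  refine ⟨C, fun b hb => ?_⟩
  rw [val_sec2]
  exact hC _ (by rw [norm_exp]; exact Real.exp_le_one_iff.mpr hb)

lemma BYi_sec2 : BYi sec2 := by
  intro a
  obtain ⟨C, hC⟩ := bdd_disc (F := fun z => ![Lf 1 (exp a) z, Dg 1 (exp a) z]) (by
    refine continuous_pi fun i => ?_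
    rcases fin2_cases i with rfl | rfl
    · simp only [cons_val_zero, Lf, l0, l1, l2, l3, l4]; fun_prop
    · simp only [cons_val_one, cons_val_zero, Dg, w0, z1, w2]; fun_prop)
  refine ⟨C, fun b hb => ?_⟩
  have h := mul_inv_cancel₀ (exp_ne_zero b)
  rw [val_sec2, g0_Y_mulVec]
  simp only [cons_val_zero, cons_val_one]
  rw [← Lf_eq _ _ _ _ h, ← Dg_eq _ _ _ _ h]
  refine hC _ ?_
  rw [← exp_neg, norm_exp]
  exact Real.exp_le_one_iff.mpr (by simpa using hb)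

noncomputable def epsG : G := yp (-11) * Ef 1 (xp 1) (yp 1)

lemma BYi_e : BYi (yp 4 • (bas 1 + cst (-1) • epsG • bas 0)) := by
  intro a
  refine ⟨‖(![0, 1] : Vec)‖, fun b _ => le_of_eq ?_⟩
  congr 1
  have h := mul_inv_cancel₀ (exp_ne_zero b)
  have e4 : exp (((4 : ℤ) : ℂ) * b) = exp b ^ 4 := by rw [← exp_nat_mul]; norm_num
  have e11 : exp (((-11 : ℤ) : ℂ) * b) = (exp b)⁻¹ ^ 11 := by
    rw [← exp_neg, ← exp_nat_mul]; norm_num
  rw [g0_Y_mulVec, val_smul, val_add, val_smul, val_smul, val_bas, val_bas, epsG, map_mul, map_Ef]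
  simp only [evG_xp, evG_yp, evG_cst, e4, e11, map_one]
  funext i
  rcases fin2_cases i with rfl | rfl
  · simp
    ring
  · simp

namespace Form

variable (F : Form 0)

lemma e0_const (s1 s2 : ℝ) (h : s2 ≤ 0) :
    F.B s1 s2 (bas 0) (bas 0) = F.B 0 s2 (bas 0) (bas 0) := by
  have h1 := F.mon1 s2 h _ (by simpa using BX0_of_indX indX_one 0)
  have h2 := F.ant1 s2 h _ (by simpa using BXi_of_indX0 indX_one)
  simp only [mul_zero, zero_mul, neg_zero, Real.exp_zero, one_mul] at h2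
  rcases le_total s1 0 with hs | hs
  · exact le_antisymm (h1 hs) (h2 hs)
  · exact le_antisymm (h2 hs) (h1 hs)

lemma X_aff (s2 : ℝ) (h : s2 ≤ 0) (u : Sec) {x y p q : ℝ} (hp : 0 ≤ p) (hq : 0 ≤ q)
    (hpq : p + q = 1) :
    F.B (p * x + q * y) s2 u (bas 0) = p * F.B x s2 u (bas 0) + q * F.B y s2 u (bas 0) := by
  refine cvx_affine (S := univ) (f := fun s => F.B s s2 u (bas 0)) (g := fun s => F.B s s2 u u)
    (a := F.B 0 s2 (bas 0) (bas 0)) (fun r => ?_) (mem_univ _) (mem_univ _) hp hq hpq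
  have := F.cvx1 s2 h (bas 0 + cst r • u)
  simpa only [F.quad _ _ h, F.e0_const _ _ h] using this

lemma vanish_pos (s2 : ℝ) (h : s2 ≤ 0) {k : ℤ} (hk : 1 ≤ k) {u : Sec} (hu : BX0 u) :
    F.B 0 s2 (xp k • u) (bas 0) = 0 := by
  refine zero_of_aff (f := fun s => F.B s s2 (xp k • u) (bas 0))
    (C := F.B 0 s2 u u * F.B 0 s2 (bas 0) (bas 0))
    (fun x y p q _ _ hp hq hpq => F.X_aff s2 h _ hp hq hpq) fun s hs => ?_
  refine (F.cs s s2 h _ _).trans ?_
  rw [F.xp_xp _ _ h, F.e0_const s s2 h, ← mul_assoc]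
  refine mul_le_mul_of_nonneg_right ?_ (F.nonneg _ _ h _)
  refine mul_le_mul (Real.exp_le_exp.mpr ?_) (F.mon1 s2 h u hu hs) (F.nonneg _ _ h _)
    (Real.exp_pos _).le
  have : (1 : ℝ) ≤ k := by exact_mod_cast hk
  nlinarith

lemma vanish_neg (s2 : ℝ) (h : s2 ≤ 0) {k : ℤ} (hk : k ≤ -1) {u : Sec} (hu : BXi u) :
    F.B 0 s2 (xp k • u) (bas 0) = 0 := by
  have := zero_of_aff (f := fun s => F.B (-s) s2 (xp k • u) (bas 0))
    (C := F.B 0 s2 u u * F.B 0 s2 (bas 0) (bas 0))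
    (fun x y p q _ _ hp hq hpq => by
      have e : -(p * x + q * y) = p * -x + q * -y := by ring
      rw [e]
      exact F.X_aff s2 h _ hp hq hpq) fun s hs => ?_
  · simpa using this
  refine (F.cs (-s) s2 h _ _).trans ?_
  rw [F.xp_xp _ _ h, F.e0_const (-s) s2 h, ← mul_assoc]
  refine mul_le_mul_of_nonneg_right ?_ (F.nonneg _ _ h _)
  have h2 := F.ant1 s2 h u hu (show (0 : ℝ) ≤ -s by linarith)
  simp only [mul_zero, zero_mul, neg_zero, Real.exp_zero, one_mul] at h2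
  refine mul_le_mul (Real.exp_le_exp.mpr ?_) h2 (F.nonneg _ _ h _) (Real.exp_pos _).le
  have : (k : ℝ) ≤ -1 := by exact_mod_cast hk
  nlinarith

/-- pairing with the first basis section, as an additive map -/
noncomputable def Lm (s : ℝ) (h : s ≤ 0) (u : Sec) : G →+ ℝ :=
  AddMonoidHom.mk' (fun ψ => F.B 0 s (ψ • u) (bas 0)) fun ψ ψ' => by
    rw [add_smul, F.add _ _ h]

lemma Lm_apply (s : ℝ) (h : s ≤ 0) (u : Sec) (ψ : G) :
    F.Lm s h u ψ = F.B 0 s (ψ • u) (bas 0) := rfl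

lemma v0 (s : ℝ) (h : s ≤ 0) (k : ℤ) (hk : k ≠ 0) {ψ : G} (hψ : IndX ψ) :
    F.Lm s h (bas 0) (xp k * ψ) = 0 := by
  rw [Lm_apply, mul_smul]
  rcases lt_or_gt_of_ne hk with hk | hk
  · exact F.vanish_neg s h (by omega) (BXi_of_indX0 hψ)
  · exact F.vanish_pos s h (by omega) (BX0_of_indX hψ 0)

lemma v1 (s : ℝ) (h : s ≤ 0) (k : ℤ) (hk : 1 ≤ k ∨ k ≤ -3) {ψ : G} (hψ : IndX ψ) :
    F.Lm s h (bas 1) (xp k * ψ) = 0 := by
  rw [Lm_apply, mul_smul]
  rcases hk with hk | hk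
  · exact F.vanish_pos s h hk (BX0_of_indX hψ 1)
  · have := F.vanish_neg s h (k := k + 2) (by omega) (BXi_of_indX1 hψ)
    rwa [smul_smul, ← xp_add, add_neg_cancel_right] at this

end Form

def d0 {R : Type} [CommRing R] (y : R) : R := z1 y * z2 y
def d1 {R : Type} [CommRing R] (y : R) : R := -(z0 y * z2 y + z1 y * z1 y)
def d2' {R : Type} [CommRing R] (y : R) : R := z0 y * z1 y

lemma IndX.mul {f g : G} (hf : IndX f) (hg : IndX g) : IndX (f * g) := fun a b => by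
  rw [map_mul, map_mul, hf a b, hg a b]

lemma IndX.pow {f : G} (hf : IndX f) (n : ℕ) : IndX (f ^ n) := fun a b => by
  rw [map_pow, map_pow, hf a b]

lemma indX_yp (k : ℤ) : IndX (yp k) := fun _ _ => rfl

macro "indx" : tactic => `(tactic| (
  intro a b
  simp only [z0, z1, z2, k0, k1, k2, k3, k4, d0, d1, d2', map_add, map_sub, map_mul, map_pow,
    map_neg, map_ofNat, map_one, evG_yp]))

lemma indX_k0 : IndX (k0 (yp 1)) := by indx
lemma indX_k1 : IndX (k1 (yp 1)) := by indx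
lemma indX_k2 : IndX (k2 (yp 1)) := by indx
lemma indX_k3 : IndX (k3 (yp 1)) := by indx
lemma indX_k4 : IndX (k4 (yp 1)) := by indx
lemma indX_d0 : IndX (d0 (yp 1)) := by indx
lemma indX_d1 : IndX (d1 (yp 1)) := by indx
lemma indX_d2 : IndX (d2' (yp 1)) := by indx
lemma indX_z0 : IndX (z0 (yp 1)) := by indx
lemma indX_z1 : IndX (z1 (yp 1)) := by indx
lemma indX_z2 : IndX (z2 (yp 1)) := by indx

/-- coefficients of the differences of the two evaluation forms -/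
def Nm : Fin 5 → ℕ → ℤ :=
  ![fun l => [16, 0, 96, 0, -409, 0, 216, 0, 81].getD l 0,
    fun l => [0, 40, 0, 305, 0, -480, 0, 135, 0].getD l 0,
    fun l => [0, 0, 75, 0, 600, 0, -675, 0, 0].getD l 0,
    fun l => [0, 5, 0, 160, 0, 915, 0, -1080, 0].getD l 0,
    fun l => [-1, 0, 24, 0, 409, 0, 864, 0, -1296].getD l 0]

lemma Nm_spec {R : Type} [CommRing R] (y : R) (j : Fin 5) :
    z1 y ^ (j : ℕ) * z0 y ^ (4 - (j : ℕ)) - z2 y ^ (j : ℕ) * z1 y ^ (4 - (j : ℕ)) =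
      ∑ l ∈ Finset.range 9, Nm j l • y ^ l := by
  fin_cases j <;> simp [Finset.sum_range_succ, Nm, z0, z1, z2] <;> ring

namespace Form

variable (F : Form 0)

lemma expand (s : ℝ) (h : s ≤ 0) (j : ℤ) (ψ : G) :
    F.Lm s h (xp (-j) • sec2) ψ =
      F.Lm s h (bas 0) (xp (-j) * (k0 (yp 1) * ψ)) +
      F.Lm s h (bas 0) (xp (-j + 1) * (k1 (yp 1) * ψ)) +
      F.Lm s h (bas 0) (xp (-j + 2) * (k2 (yp 1) * ψ)) +
      F.Lm s h (bas 0) (xp (-j + 3) * (k3 (yp 1) * ψ)) +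
      F.Lm s h (bas 0) (xp (-j + 4) * (k4 (yp 1) * ψ)) +
      (F.Lm s h (bas 1) (xp (-j) * (d0 (yp 1) * ψ)) +
      F.Lm s h (bas 1) (xp (-j + 1) * (d1 (yp 1) * ψ)) +
      F.Lm s h (bas 1) (xp (-j + 2) * (d2' (yp 1) * ψ))) := by
  have e2 : xp 2 = xp 1 ^ 2 := (xp_pow 2).symm
  have e3 : xp 3 = xp 1 ^ 3 := (xp_pow 3).symm
  have e4 : xp 4 = xp 1 ^ 4 := (xp_pow 4).symm
  simp only [← map_add]
  rw [Lm_apply, Lm_apply, Lm_apply, ← F.add _ _ h, sec_eq (ψ • xp (-j) • sec2)]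
  congr 3
  · simp only [Pi.smul_apply, smul_eq_mul, sec2, cons_val_zero, Kf, xp_add, e2, e3, e4]; ring
  · simp only [Pi.smul_apply, smul_eq_mul, sec2, cons_val_zero, cons_val_one, Df, xp_add, e2, d0,
      d1, d2']
    ring

lemma eval_sum (s : ℝ) (h : s ≤ 0) {z w φ : G} (hz : IndX z) (hw : IndX w) (hφ : IndX φ)
    (hD : Df z w (yp 1) = 0) :
    ∑ j : Fin 5, F.Lm s h (xp (-((j : ℕ) : ℤ)) • sec2) (w ^ (j : ℕ) * z ^ (4 - (j : ℕ)) * φ) =
      F.Lm s h (bas 0) (xp 0 * (Kf z w (yp 1) * φ)) := by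
  have hψ : ∀ i k : ℕ, IndX (w ^ i * z ^ k * φ) := fun i k => ((hw.pow i).mul (hz.pow k)).mul hφ
  have hD' : d0 (yp 1) * z ^ 2 + d1 (yp 1) * z * w + d2' (yp 1) * w ^ 2 = 0 := by
    rw [← hD]; simp only [d0, d1, d2', Df]; ring
  have q0 : F.Lm s h (bas 1) (xp 0 * (d0 (yp 1) * (w ^ 0 * z ^ 4 * φ))) +
      F.Lm s h (bas 1) (xp 0 * (d1 (yp 1) * (w ^ 1 * z ^ 3 * φ))) +
      F.Lm s h (bas 1) (xp 0 * (d2' (yp 1) * (w ^ 2 * z ^ 2 * φ))) = 0 := by
    rw [← map_add, ← map_add, ← map_zero (F.Lm s h (bas 1))]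
    congr 1
    linear_combination (xp 0 * z ^ 2 * φ) * hD'
  have q1 : F.Lm s h (bas 1) (xp (-1) * (d0 (yp 1) * (w ^ 1 * z ^ 3 * φ))) +
      F.Lm s h (bas 1) (xp (-1) * (d1 (yp 1) * (w ^ 2 * z ^ 2 * φ))) +
      F.Lm s h (bas 1) (xp (-1) * (d2' (yp 1) * (w ^ 3 * z ^ 1 * φ))) = 0 := by
    rw [← map_add, ← map_add, ← map_zero (F.Lm s h (bas 1))]
    congr 1
    linear_combination (xp (-1) * z * w * φ) * hD'
  have q2 : F.Lm s h (bas 1) (xp (-2) * (d0 (yp 1) * (w ^ 2 * z ^ 2 * φ))) +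
      F.Lm s h (bas 1) (xp (-2) * (d1 (yp 1) * (w ^ 3 * z ^ 1 * φ))) +
      F.Lm s h (bas 1) (xp (-2) * (d2' (yp 1) * (w ^ 4 * z ^ 0 * φ))) = 0 := by
    rw [← map_add, ← map_add, ← map_zero (F.Lm s h (bas 1))]
    congr 1
    linear_combination (xp (-2) * w ^ 2 * φ) * hD'
  have p0 : F.Lm s h (bas 0) (xp 0 * (Kf z w (yp 1) * φ)) =
      F.Lm s h (bas 0) (xp 0 * (k0 (yp 1) * (w ^ 0 * z ^ 4 * φ))) +
      F.Lm s h (bas 0) (xp 0 * (k1 (yp 1) * (w ^ 1 * z ^ 3 * φ))) +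
      F.Lm s h (bas 0) (xp 0 * (k2 (yp 1) * (w ^ 2 * z ^ 2 * φ))) +
      F.Lm s h (bas 0) (xp 0 * (k3 (yp 1) * (w ^ 3 * z ^ 1 * φ))) +
      F.Lm s h (bas 0) (xp 0 * (k4 (yp 1) * (w ^ 4 * z ^ 0 * φ))) := by
    simp only [← map_add]
    congr 1
    simp only [Kf]; ring
  have a0 := fun (k : ℤ) (hk : k ≠ 0) (i m : ℕ) => F.v0 s h k hk (indX_k0.mul (hψ i m))
  have a1 := fun (k : ℤ) (hk : k ≠ 0) (i m : ℕ) => F.v0 s h k hk (indX_k1.mul (hψ i m))
  have a2 := fun (k : ℤ) (hk : k ≠ 0) (i m : ℕ) => F.v0 s h k hk (indX_k2.mul (hψ i m))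
  have a3 := fun (k : ℤ) (hk : k ≠ 0) (i m : ℕ) => F.v0 s h k hk (indX_k3.mul (hψ i m))
  have a4 := fun (k : ℤ) (hk : k ≠ 0) (i m : ℕ) => F.v0 s h k hk (indX_k4.mul (hψ i m))
  have b0 := fun (k : ℤ) (hk : 1 ≤ k ∨ k ≤ -3) (i m : ℕ) => F.v1 s h k hk (indX_d0.mul (hψ i m))
  have b1 := fun (k : ℤ) (hk : 1 ≤ k ∨ k ≤ -3) (i m : ℕ) => F.v1 s h k hk (indX_d1.mul (hψ i m))
  have b2 := fun (k : ℤ) (hk : 1 ≤ k ∨ k ≤ -3) (i m : ℕ) => F.v1 s h k hk (indX_d2.mul (hψ i m))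
  have x0 := F.expand s h 0 (w ^ 0 * z ^ 4 * φ)
  have x1 := F.expand s h 1 (w ^ 1 * z ^ 3 * φ)
  have x2 := F.expand s h 2 (w ^ 2 * z ^ 2 * φ)
  have x3 := F.expand s h 3 (w ^ 3 * z ^ 1 * φ)
  have x4 := F.expand s h 4 (w ^ 4 * z ^ 0 * φ)
  rw [a1 _ (by norm_num), a2 _ (by norm_num), a3 _ (by norm_num), a4 _ (by norm_num),
    b1 _ (by norm_num), b2 _ (by norm_num)] at x0
  rw [a0 _ (by norm_num), a2 _ (by norm_num), a3 _ (by norm_num), a4 _ (by norm_num),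
    b2 _ (by norm_num)] at x1
  rw [a0 _ (by norm_num), a1 _ (by norm_num), a3 _ (by norm_num), a4 _ (by norm_num)] at x2
  rw [a0 _ (by norm_num), a1 _ (by norm_num), a2 _ (by norm_num), a4 _ (by norm_num),
    b0 _ (by norm_num)] at x3
  rw [a0 _ (by norm_num), a1 _ (by norm_num), a2 _ (by norm_num), a3 _ (by norm_num),
    b0 _ (by norm_num), b1 _ (by norm_num)] at x4
  rw [Fin.sum_univ_five, p0]
  simp only [Int.reduceNeg, Int.reduceAdd, neg_zero] at x0 x1 x2 x3 x4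
  change F.Lm s h (xp (-0) • sec2) (w ^ 0 * z ^ 4 * φ) +
    F.Lm s h (xp (-1) • sec2) (w ^ 1 * z ^ 3 * φ) +
    F.Lm s h (xp (-2) • sec2) (w ^ 2 * z ^ 2 * φ) +
    F.Lm s h (xp (-3) • sec2) (w ^ 3 * z ^ 1 * φ) +
    F.Lm s h (xp (-4) • sec2) (w ^ 4 * z ^ 0 * φ) = _
  rw [neg_zero]
  linarith

lemma sec2_const (s : ℝ) (h : s ≤ 0) : F.B 0 s sec2 sec2 = F.B 0 0 sec2 sec2 := by
  have h1 := F.mon2 0 _ BY0_sec2 h (le_refl (0 : ℝ)) h
  have h2 := F.ant2 0 _ BYi_sec2 h (le_refl (0 : ℝ)) h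
  simp only [mul_zero, zero_mul, neg_zero, Real.exp_zero, one_mul] at h2
  exact le_antisymm h1 h2

lemma Y_aff (j k : ℤ) : ∃ α β : ℝ, ∀ (s : ℝ) (h : s ≤ 0),
    F.Lm s h (xp (-j) • sec2) (yp k) = Real.exp (2 * k * s) * (α + β * s) := by
  have key : ∀ s ≤ 0, F.B 0 s (yp (-k) • bas 0) (xp (-j) • sec2) =
      F.B 0 0 (yp (-k) • bas 0) (xp (-j) • sec2) +
        (F.B 0 0 (yp (-k) • bas 0) (xp (-j) • sec2) -
          F.B 0 (-1) (yp (-k) • bas 0) (xp (-j) • sec2)) * s := by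
    refine aff_repr (f := fun s => F.B 0 s (yp (-k) • bas 0) (xp (-j) • sec2))
      fun x y p q hx hy hp hq hpq => ?_
    refine cvx_affine (S := Iic 0) (f := fun s => F.B 0 s (yp (-k) • bas 0) (xp (-j) • sec2))
      (g := fun s => F.B 0 s (yp (-k) • bas 0) (yp (-k) • bas 0))
      (a := F.B 0 0 sec2 sec2) (fun r => ?_) hx hy hp hq hpq
    refine (F.cvx2 0 (xp (-j) • sec2 + cst r • yp (-k) • bas 0)).congr fun s hs => ?_
    simp only [F.quad _ _ hs, F.xp_xp _ _ hs, F.sec2_const s hs, mul_zero, Real.exp_zero, one_mul]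
  exact ⟨_, _, fun s h => by rw [Lm_apply, F.mvy _ _ h, F.symm _ _ h, key s h]⟩

lemma Gamma_zero (j : Fin 5) (k : ℤ) (s : ℝ) (h : s ≤ 0) :
    F.Lm s h (xp (-((j : ℕ) : ℤ)) • sec2) (yp k) = 0 := by
  choose α β hαβ using fun (j : Fin 5) (k : ℤ) => F.Y_aff ((j : ℕ) : ℤ) k
  have main : ∀ m : ℤ, ∀ l < 9, (∑ j : Fin 5, (Nm j l : ℝ) * α j (l + m) = 0) ∧
      ∑ j : Fin 5, (Nm j l : ℝ) * β j (l + m) = 0 := by
    intro m
    refine exp_lin_indep 9 (fun l => ∑ j : Fin 5, (Nm j l : ℝ) * α j (l + m))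
      (fun l => ∑ j : Fin 5, (Nm j l : ℝ) * β j (l + m)) fun s h => ?_
    have e1 := F.eval_sum s h indX_z0 indX_z1 (indX_yp m) (by simp only [Df]; ring)
    have e2 := F.eval_sum s h indX_z1 indX_z2 (indX_yp m) (by simp only [Df]; ring)
    rw [Kf_01] at e1
    rw [Kf_12, ← e1, ← sub_eq_zero, ← neg_eq_zero, neg_sub, ← Finset.sum_sub_distrib] at e2
    have e3 : ∀ j : Fin 5, F.Lm s h (xp (-((j : ℕ) : ℤ)) • sec2)
          (z1 (yp 1) ^ (j : ℕ) * z0 (yp 1) ^ (4 - (j : ℕ)) * yp m) -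
        F.Lm s h (xp (-((j : ℕ) : ℤ)) • sec2)
          (z2 (yp 1) ^ (j : ℕ) * z1 (yp 1) ^ (4 - (j : ℕ)) * yp m) =
        ∑ l ∈ Finset.range 9, (Nm j l : ℝ) *
          (Real.exp (2 * ((l + m : ℤ) : ℝ) * s) * (α j (l + m) + β j (l + m) * s)) := by
      intro j
      rw [← map_sub, ← sub_mul, Nm_spec, Finset.sum_mul, map_sum]
      refine Finset.sum_congr rfl fun l _ => ?_
      rw [smul_mul_assoc, map_zsmul, yp_pow, ← yp_add, hαβ, zsmul_eq_mul]
    simp only [e3] at e2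
    rw [Finset.sum_comm] at e2
    apply mul_left_cancel₀ (Real.exp_pos (2 * m * s)).ne'
    rw [mul_zero, ← e2, Finset.mul_sum]
    refine Finset.sum_congr rfl fun l _ => ?_
    rw [← mul_assoc, ← Real.exp_add, Finset.sum_mul, ← Finset.sum_add_distrib, Finset.mul_sum]
    refine Finset.sum_congr rfl fun j _ => ?_
    have : 2 * (m : ℝ) * s + 2 * (l : ℝ) * s = 2 * ((l + m : ℤ) : ℝ) * s := by push_cast; ring
    rw [this]; ring
  have solve : ∀ γ : Fin 5 → ℝ, (∀ l < 9, ∑ j : Fin 5, (Nm j l : ℝ) * γ j = 0) → γ j = 0 := by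
    intro γ hγ
    have h0 := hγ 0 (by norm_num)
    have h1 := hγ 1 (by norm_num)
    have h2 := hγ 2 (by norm_num)
    have h3 := hγ 3 (by norm_num)
    have h4 := hγ 4 (by norm_num)
    simp [Fin.sum_univ_five, Nm] at h0 h1 h2 h3 h4
    fin_cases j <;> simp <;> linarith
  have hα : α j k = 0 := solve (fun j => α j k) fun l hl => by
    simpa using (main (k - l) l hl).1
  have hβ : β j k = 0 := solve (fun j => β j k) fun l hl => by
    simpa using (main (k - l) l hl).2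
  rw [hαβ, hα, hβ]; simp

lemma Gamma_poly (j : Fin 5) (s : ℝ) (h : s ≤ 0) (q : Polynomial ℤ) :
    F.Lm s h (xp (-((j : ℕ) : ℤ)) • sec2)
      (Polynomial.eval₂RingHom (Int.castRingHom G) (yp 1) q) = 0 := by
  induction q using Polynomial.induction_on' with
  | add p q hp hq => rw [map_add, map_add, hp, hq, add_zero]
  | monomial n a =>
    rw [Polynomial.coe_eval₂RingHom, Polynomial.eval₂_monomial, yp_pow, eq_intCast,
      ← zsmul_eq_mul, map_zsmul, F.Gamma_zero, smul_zero]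

lemma e0_zero (s : ℝ) (h : s ≤ 0) : F.B 0 s (bas 0) (bas 0) = 0 := by
  have e1 := F.eval_sum s h indX_z0 indX_z1 indX_one (by simp only [Df]; ring)
  rw [Kf_01, Finset.sum_eq_zero] at e1
  · have e2 : (xp 0 * (12150000 * 1) : G) = cst 12150000 := by
      rw [xp_zero]; simp [cst, map_ofNat]
    rw [e2, Lm_apply, F.smul _ _ h] at e1
    linarith
  · intro j _
    have := F.Gamma_poly j s h (z1 Polynomial.X ^ (j : ℕ) * z0 Polynomial.X ^ (4 - (j : ℕ)))
    rw [map_mul, map_pow, map_pow, map_z0, map_z1, Polynomial.coe_eval₂RingHom,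
      Polynomial.eval₂_X] at this
    rwa [mul_one]

include F in
theorem contra : False := by
  have key : ∀ s ≤ 0, F.B 0 s (yp 4 • (bas 1 + cst (-1) • epsG • bas 0))
      (yp 4 • (bas 1 + cst (-1) • epsG • bas 0)) =
      Real.exp (2 * (4 : ℤ) * s) * F.B 0 s (bas 1) (bas 1) := by
    intro s h
    obtain ⟨C, hC⟩ := exists_bound epsG 0 s
    have h1 := F.bd 0 s h _ _ (bas 0) hC
    rw [F.e0_zero s h, mul_zero] at h1
    have h2 := le_antisymm h1 (F.nonneg 0 s h _)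
    have h3 := F.cs 0 s h (bas 1) (epsG • bas 0)
    rw [h2, zero_mul] at h3
    have h4 := pow_eq_zero_iff two_ne_zero |>.mp (le_antisymm h3 (sq_nonneg _))
    rw [F.yp_yp _ _ h, F.quad _ _ h, h2, h4]
    ring
  have hm : (-1 : ℝ) ≤ 0 := by norm_num
  have h1 := F.ant2 0 _ BYi_e hm (le_refl (0 : ℝ)) hm
  have h2 := F.mon2 0 _ (BY0_bas 1) hm (le_refl (0 : ℝ)) hm
  simp only [mul_zero, zero_mul, neg_zero, Real.exp_zero, one_mul, key 0 le_rfl, key (-1) hm]
    at h1 h2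
  have h3 := F.norm
  rw [F.e0_zero 0 le_rfl, zero_add] at h3
  have h4 : Real.exp (2 * ((4 : ℤ) : ℝ) * -1) < 1 := Real.exp_lt_one_iff.mpr (by norm_num)
  have h5 := F.nonneg 0 (-1) hm (bas 1)
  have h6 := Real.exp_pos (2 * ((4 : ℤ) : ℝ) * -1)
  nlinarith

end Form

end Crest.Agent.R258
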