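import Crest.Agent.R258.Levi
import Crest.Agent.R258.Bundle

/-!
Torus averages as an abstract structure, and their limit.
-/

set_option autoImplicit false

open Complex Filter Topology Set Matrix Crest.AlgGeometry.QuadricBundle

namespace Crest.Agent.R258

/-- Holomorphic functions on the torus `(ℂ*)²`, in logarithmic coordinates. -/
noncomputable def Gd : Subalgebra ℂ (ℂ × ℂ → ℂ) where
  carrier := {f | Differentiable ℂ f ∧ (∀ a b, f (a + 2 * Real.pi * I, b) = f (a, b)) ∧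
    ∀ a b, f (a, b + 2 * Real.pi * I) = f (a, b)}
  mul_mem' := fun hf hg => ⟨hf.1.mul hg.1, fun a b => by simp only [Pi.mul_apply, hf.2.1, hg.2.1],
    fun a b => by simp only [Pi.mul_apply, hf.2.2, hg.2.2]⟩
  add_mem' := fun hf hg => ⟨hf.1.add hg.1, fun a b => by simp only [Pi.add_apply, hf.2.1, hg.2.1],
    fun a b => by simp only [Pi.add_apply, hf.2.2, hg.2.2]⟩
  algebraMap_mem' := fun r => ⟨differentiable_const r, fun _ _ => rfl, fun _ _ => rfl⟩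

abbrev G : Type := Gd

abbrev Sec : Type := Fin 2 → G

/-- evaluation at a point, as a ring homomorphism -/
noncomputable def evG (W : ℂ × ℂ) : G →+* ℂ :=
  (Pi.evalRingHom (fun _ => ℂ) W).comp Gd.val.toRingHom

lemma evG_apply (W : ℂ × ℂ) (f : G) : evG W f = f.1 W := rfl

lemma G_ext {f g : G} (h : ∀ W, evG W f = evG W g) : f = g := Subtype.ext (funext h)

noncomputable def val (u : Sec) (W : ℂ × ℂ) : Vec := fun i => evG W (u i)

lemma val_add (u v : Sec) (W : ℂ × ℂ) : val (u + v) W = val u W + val v W := by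
  funext i; simp [val]

lemma val_smul (f : G) (u : Sec) (W : ℂ × ℂ) : val (f • u) W = evG W f • val u W := by
  funext i; simp [val]

lemma exp_int_per (k : ℤ) (a : ℂ) : exp (k * (a + 2 * Real.pi * I)) = exp (k * a) := by
  rw [mul_add, exp_add, exp_int_mul_two_pi_mul_I, mul_one]

noncomputable def xp (k : ℤ) : G :=
  ⟨fun W => exp (k * W.1), by fun_prop, fun a _ => exp_int_per k a, fun _ _ => rfl⟩

noncomputable def yp (k : ℤ) : G :=
  ⟨fun W => exp (k * W.2), by fun_prop, fun _ _ => rfl, fun _ b => exp_int_per k b⟩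

lemma evG_xp (W : ℂ × ℂ) (k : ℤ) : evG W (xp k) = exp (k * W.1) := rfl
lemma evG_yp (W : ℂ × ℂ) (k : ℤ) : evG W (yp k) = exp (k * W.2) := rfl

lemma xp_add (k l : ℤ) : xp (k + l) = xp k * xp l :=
  G_ext fun W => by simp only [map_mul, evG_xp, ← exp_add]; congr 1; push_cast; ring
lemma yp_add (k l : ℤ) : yp (k + l) = yp k * yp l :=
  G_ext fun W => by simp only [map_mul, evG_yp, ← exp_add]; congr 1; push_cast; ring
lemma xp_zero : xp 0 = 1 := G_ext fun W => by simp [evG_xp]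
lemma yp_zero : yp 0 = 1 := G_ext fun W => by simp [evG_yp]
lemma xp_pow (n : ℕ) : xp 1 ^ n = xp n :=
  G_ext fun W => by simp [evG_xp, ← exp_nat_mul]
lemma yp_pow (n : ℕ) : yp 1 ^ n = yp n :=
  G_ext fun W => by simp [evG_yp, ← exp_nat_mul]

noncomputable def cst (r : ℝ) : G := algebraMap ℂ G r

lemma evG_cst (W : ℂ × ℂ) (r : ℝ) : evG W (cst r) = r := rfl

noncomputable def bas (j : Fin 2) : Sec := Pi.single j 1

lemma val_bas (j : Fin 2) (W : ℂ × ℂ) : val (bas j) W = Pi.single j 1 := by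
  funext i
  by_cases h : i = j
  · subst h; simp [val, bas]
  · simp [val, bas, Pi.single_eq_of_ne h]

lemma sec_eq (u : Sec) : u = u 0 • bas 0 + u 1 • bas 1 := by
  funext i
  rcases fin2_cases i with rfl | rfl <;> simp [bas]

def BX0 (u : Sec) : Prop := ∀ b, ∃ C, ∀ a : ℂ, a.re ≤ 0 → ‖val u (a, b)‖ ≤ C
def BY0 (u : Sec) : Prop := ∀ a, ∃ C, ∀ b : ℂ, b.re ≤ 0 → ‖val u (a, b)‖ ≤ C
def BXi (u : Sec) : Prop := ∀ b, ∃ C, ∀ a : ℂ, 0 ≤ a.re →
  ‖(g0 (0, 0) (1, 0) ![exp a, exp b])ᵀ *ᵥ val u (a, b)‖ ≤ C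
def BYi (u : Sec) : Prop := ∀ a, ∃ C, ∀ b : ℂ, 0 ≤ b.re →
  ‖(g0 (0, 0) (0, 1) ![exp a, exp b])ᵀ *ᵥ val u (a, b)‖ ≤ C

/-- The properties of the torus averages of the dual metric. -/
structure Form (ε : ℝ) : Type where
  B : ℝ → ℝ → Sec → Sec → ℝ
  add : ∀ s1 s2, s2 ≤ 0 → ∀ u u' v, B s1 s2 (u + u') v = B s1 s2 u v + B s1 s2 u' v
  smul : ∀ s1 s2, s2 ≤ 0 → ∀ (r : ℝ) u v, B s1 s2 (cst r • u) v = r * B s1 s2 u v
  symm : ∀ s1 s2, s2 ≤ 0 → ∀ u v, B s1 s2 u v = B s1 s2 v u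
  nonneg : ∀ s1 s2, s2 ≤ 0 → ∀ u, 0 ≤ B s1 s2 u u
  mvx : ∀ s1 s2, s2 ≤ 0 → ∀ (k : ℤ) u v,
    B s1 s2 (xp k • u) v = Real.exp (2 * k * s1) * B s1 s2 u (xp (-k) • v)
  mvy : ∀ s1 s2, s2 ≤ 0 → ∀ (k : ℤ) u v,
    B s1 s2 (yp k • u) v = Real.exp (2 * k * s2) * B s1 s2 u (yp (-k) • v)
  bd : ∀ s1 s2 : ℝ, s2 ≤ 0 → ∀ (f : G) (C : ℝ) u,
    (∀ θ1 θ2 : ℝ, ‖evG (s1 + θ1 * I, s2 + θ2 * I) f‖ ≤ C) →
      B s1 s2 (f • u) (f • u) ≤ C ^ 2 * B s1 s2 u u
  cvx1 : ∀ s2, s2 ≤ 0 → ∀ u, ConvexOn ℝ univ (fun s1 => B s1 s2 u u)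
  cvx2 : ∀ s1 u, ConvexOn ℝ (Iic 0) (fun s2 => B s1 s2 u u)
  mon1 : ∀ s2, s2 ≤ 0 → ∀ u, BX0 u → Monotone (fun s1 => B s1 s2 u u)
  ant1 : ∀ s2, s2 ≤ 0 → ∀ u, BXi u → Antitone (fun s1 => Real.exp (-(2 * ε * s1)) * B s1 s2 u u)
  mon2 : ∀ s1 u, BY0 u → MonotoneOn (fun s2 => B s1 s2 u u) (Iic 0)
  ant2 : ∀ s1 u, BYi u → AntitoneOn (fun s2 => Real.exp (-(2 * ε * s2)) * B s1 s2 u u) (Iic 0)
  norm : B 0 0 (bas 0) (bas 0) + B 0 0 (bas 1) (bas 1) = 1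

lemma exists_bound (f : G) (s1 s2 : ℝ) :
    ∃ C, ∀ θ1 θ2 : ℝ, ‖evG (s1 + θ1 * I, s2 + θ2 * I) f‖ ≤ C := by
  have hc : Continuous (fun q : ℝ × ℝ => evG (s1 + q.1 * I, s2 + q.2 * I) f) :=
    f.2.1.continuous.comp (by fun_prop)
  obtain ⟨C, hC⟩ := ((isCompact_Icc (a := (0 : ℝ)) (b := 2 * Real.pi)).prod
    (isCompact_Icc (a := (0 : ℝ)) (b := 2 * Real.pi))).exists_bound_of_continuousOn
    hc.continuousOn
  refine ⟨C, fun θ1 θ2 => ?_⟩
  have p1 : Function.Periodic (fun θ : ℝ => evG (s1 + θ * I, s2 + θ2 * I) f) (2 * Real.pi) := by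
    intro θ
    have := f.2.2.1 (s1 + θ * I) (s2 + θ2 * I)
    simp only [evG_apply]
    rw [← this]; push_cast; rw [add_mul, add_assoc]
  obtain ⟨φ1, h1, e1⟩ := p1.exists_mem_Ico₀ Real.two_pi_pos θ1
  have p2 : Function.Periodic (fun θ : ℝ => evG (s1 + φ1 * I, s2 + θ * I) f) (2 * Real.pi) := by
    intro θ
    have := f.2.2.2 (s1 + φ1 * I) (s2 + θ * I)
    simp only [evG_apply]
    rw [← this]; push_cast; rw [add_mul, add_assoc]
  obtain ⟨φ2, h2, e2⟩ := p2.exists_mem_Ico₀ Real.two_pi_pos θ2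
  rw [e1, e2]
  exact hC (φ1, φ2) ⟨Ico_subset_Icc_self h1, Ico_subset_Icc_self h2⟩

lemma g0_X (x y : ℂ) : g0 (0, 0) (1, 0) ![x, y] = !![1, 0; 0, x ^ 2] := by
  simp [g0, MY, DX]

lemma g0_Y (x y : ℂ) :
    g0 (0, 0) (0, 1) ![x, y] = !![y ^ 8, 0; y ^ 8 * (y⁻¹ ^ 11 * Ef 1 x y), y⁻¹ ^ 4] := by
  simp [g0, MY, DX, epsF, Xh]

lemma g0_X_mulVec (x y : ℂ) (v : Vec) :
    (g0 (0, 0) (1, 0) ![x, y])ᵀ *ᵥ v = ![v 0, x ^ 2 * v 1] := by
  rw [g0_X]
  funext i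
  rcases fin2_cases i with rfl | rfl <;> simp [mulVec, dotProduct, Fin.sum_univ_two]

lemma g0_Y_mulVec (x y : ℂ) (v : Vec) :
    (g0 (0, 0) (0, 1) ![x, y])ᵀ *ᵥ v =
      ![y ^ 8 * (v 0 + y⁻¹ ^ 11 * Ef 1 x y * v 1), y⁻¹ ^ 4 * v 1] := by
  rw [g0_Y]
  funext i
  rcases fin2_cases i with rfl | rfl
  · simp only [mulVec, dotProduct, Fin.sum_univ_two, transpose_apply, of_apply, cons_val',
      cons_val_zero, cons_val_one, cons_val_fin_one]
    ring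
  · simp only [mulVec, dotProduct, Fin.sum_univ_two, transpose_apply, of_apply, cons_val',
      cons_val_zero, cons_val_one, cons_val_fin_one]
    ring

/-- functions of the second variable only -/
def IndX (f : G) : Prop := ∀ a b, evG (a, b) f = evG (0, b) f

lemma BX0_of_indX {f : G} (hf : IndX f) (j : Fin 2) : BX0 (f • bas j) := fun b =>
  ⟨‖val (f • bas j) (0, b)‖, fun a _ => by rw [val_smul, val_smul, hf a b, val_bas, val_bas]⟩

lemma BXi_of_indX0 {f : G} (hf : IndX f) : BXi (f • bas 0) := fun b =>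
  ⟨‖(![evG (0, b) f, 0] : Vec)‖, fun a _ => by
    rw [g0_X_mulVec, val_smul, hf a b, val_bas]; simp⟩

lemma BXi_of_indX1 {f : G} (hf : IndX f) : BXi (xp (-2) • f • bas 1) := fun b =>
  ⟨‖(![0, evG (0, b) f] : Vec)‖, fun a _ => by
    rw [g0_X_mulVec, val_smul, val_smul, hf a b, val_bas, evG_xp]
    have : exp a ^ 2 * exp (-(2 * a)) = 1 := by
      rw [← exp_nat_mul, ← exp_add]; simp
    simp [← mul_assoc, this]⟩

lemma indX_one : IndX 1 := fun _ _ => by simp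

lemma BY0_bas (j : Fin 2) : BY0 (bas j) := fun _ =>
  ⟨‖(Pi.single j 1 : Vec)‖, fun _ _ => by rw [val_bas]⟩

namespace Form

variable {ε : ℝ} (F : Form ε)

lemma add_right (s1 s2 : ℝ) (h : s2 ≤ 0) (u v v' : Sec) :
    F.B s1 s2 u (v + v') = F.B s1 s2 u v + F.B s1 s2 u v' := by
  rw [F.symm _ _ h, F.add _ _ h, F.symm _ _ h v, F.symm _ _ h v']

lemma smul_right (s1 s2 : ℝ) (h : s2 ≤ 0) (r : ℝ) (u v : Sec) :
    F.B s1 s2 u (cst r • v) = r * F.B s1 s2 u v := by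
  rw [F.symm _ _ h, F.smul _ _ h, F.symm _ _ h v]

lemma quad (s1 s2 : ℝ) (h : s2 ≤ 0) (r : ℝ) (u v : Sec) :
    F.B s1 s2 (u + cst r • v) (u + cst r • v) =
      F.B s1 s2 u u + 2 * r * F.B s1 s2 v u + r ^ 2 * F.B s1 s2 v v := by
  rw [F.add _ _ h, F.add_right _ _ h, F.add_right _ _ h, F.smul _ _ h, F.smul _ _ h,
    F.smul_right _ _ h, F.smul_right _ _ h, F.symm _ _ h u v]
  ring

lemma cs (s1 s2 : ℝ) (h : s2 ≤ 0) (u v : Sec) :
    F.B s1 s2 v u ^ 2 ≤ F.B s1 s2 v v * F.B s1 s2 u u := by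
  have := discrim_le_zero (a := F.B s1 s2 v v) (b := 2 * F.B s1 s2 v u) (c := F.B s1 s2 u u)
    fun r => by
      have := F.nonneg s1 s2 h (u + cst r • v)
      rw [F.quad _ _ h] at this
      nlinarith
  rw [discrim] at this
  nlinarith

lemma xp_xp (s1 s2 : ℝ) (h : s2 ≤ 0) (k : ℤ) (u v : Sec) :
    F.B s1 s2 (xp k • u) (xp k • v) = Real.exp (2 * k * s1) * F.B s1 s2 u v := by
  rw [F.mvx _ _ h, smul_smul, ← xp_add, neg_add_cancel, xp_zero, one_smul]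

lemma yp_yp (s1 s2 : ℝ) (h : s2 ≤ 0) (k : ℤ) (u v : Sec) :
    F.B s1 s2 (yp k • u) (yp k • v) = Real.exp (2 * k * s2) * F.B s1 s2 u v := by
  rw [F.mvy _ _ h, smul_smul, ← yp_add, neg_add_cancel, yp_zero, one_smul]

lemma bas_le (_h0 : 0 ≤ ε) (h1 : ε ≤ 1) (s1 s2 : ℝ) (h : s2 ≤ 0) (j : Fin 2) :
    F.B s1 s2 (bas j) (bas j) ≤ Real.exp (6 * |s1|) := by
  have e1 : F.B s1 s2 (bas j) (bas j) ≤ F.B s1 0 (bas j) (bas j) :=
    F.mon2 s1 _ (BY0_bas j) h (le_refl (0 : ℝ)) h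
  have n0 := F.nonneg 0 0 le_rfl (bas 0)
  have n1 := F.nonneg 0 0 le_rfl (bas 1)
  have hn := F.norm
  have e2 : F.B 0 0 (bas j) (bas j) ≤ 1 := by
    rcases fin2_cases j with rfl | rfl <;> linarith
  refine e1.trans ?_
  rcases le_total s1 0 with hs | hs
  · have := F.mon1 0 le_rfl _ (by simpa using BX0_of_indX indX_one j) hs
    have h3 : 1 ≤ Real.exp (6 * |s1|) := Real.one_le_exp (by positivity)
    simp only at this
    linarith
  · rw [abs_of_nonneg hs]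
    have key : ∀ c : ℝ, c ≤ 6 * s1 → Real.exp (-c) * F.B s1 0 (bas j) (bas j) ≤ 1 →
        F.B s1 0 (bas j) (bas j) ≤ Real.exp (6 * s1) := by
      intro c hc hle
      have h4 : F.B s1 0 (bas j) (bas j) ≤ Real.exp c := by
        have := mul_le_mul_of_nonneg_left hle (Real.exp_pos c).le
        rwa [← mul_assoc, ← Real.exp_add, add_neg_cancel, Real.exp_zero, one_mul, mul_one] at this
      exact h4.trans (Real.exp_le_exp.mpr hc)
    rcases fin2_cases j with rfl | rfl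
    · have := F.ant1 0 le_rfl _ (by simpa using BXi_of_indX0 indX_one) hs
      simp only [mul_zero, neg_zero, Real.exp_zero, one_mul] at this
      exact key (2 * ε * s1) (by nlinarith) (this.trans e2)
    · have := F.ant1 0 le_rfl _ (by simpa using BXi_of_indX1 indX_one) hs
      simp only [F.xp_xp _ _ le_rfl, mul_zero, neg_zero, Real.exp_zero, one_mul] at this
      refine key (2 * ε * s1 + 4 * s1) (by nlinarith) ?_
      rw [← mul_assoc, ← Real.exp_add] at this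
      have e3 : -(2 * ε * s1 + 4 * s1) = -(2 * ε * s1) + 2 * ((-2 : ℤ) : ℝ) * s1 := by
        push_cast; ring
      rw [e3]
      exact this.trans e2

end Form

lemma uniform_bound (s1 s2 : ℝ) (h : s2 ≤ 0) (u v : Sec) :
    ∃ C : ℝ, ∀ (ε : ℝ) (F : Form ε), 0 ≤ ε → ε ≤ 1 → |F.B s1 s2 u v| ≤ C := by
  have key : ∀ u : Sec, ∃ C : ℝ, 0 ≤ C ∧ ∀ (ε : ℝ) (F : Form ε), 0 ≤ ε → ε ≤ 1 →
      F.B s1 s2 u u ≤ C := by
    intro u
    obtain ⟨C0, h0⟩ := exists_bound (u 0) s1 s2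
    obtain ⟨C1, h1⟩ := exists_bound (u 1) s1 s2
    refine ⟨2 * (C0 ^ 2 * Real.exp (6 * |s1|)) + 2 * (C1 ^ 2 * Real.exp (6 * |s1|)),
      by positivity, fun ε F e0 e1 => ?_⟩
    have b0 := (F.bd s1 s2 h _ _ (bas 0) h0).trans
      (mul_le_mul_of_nonneg_left (F.bas_le e0 e1 s1 s2 h 0) (sq_nonneg C0))
    have b1 := (F.bd s1 s2 h _ _ (bas 1) h1).trans
      (mul_le_mul_of_nonneg_left (F.bas_le e0 e1 s1 s2 h 1) (sq_nonneg C1))
    have q1 := F.quad s1 s2 h 1 (u 0 • bas 0) (u 1 • bas 1)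
    have q2 := F.quad s1 s2 h (-1) (u 0 • bas 0) (u 1 • bas 1)
    have n2 := F.nonneg s1 s2 h (u 0 • bas 0 + cst (-1) • u 1 • bas 1)
    have : cst 1 = 1 := by simp [cst]
    rw [this, one_smul, ← sec_eq] at q1
    linarith
  obtain ⟨Cu, hu0, hu⟩ := key u
  obtain ⟨Cv, hv0, hv⟩ := key v
  refine ⟨Cu + Cv, fun ε F e0 e1 => ?_⟩
  have c := F.cs s1 s2 h v u
  have a := hu ε F e0 e1
  have b := hv ε F e0 e1
  have nu := F.nonneg s1 s2 h u
  have nv := F.nonneg s1 s2 h v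
  refine abs_le_of_sq_le_sq' ?_ (by positivity) |> abs_le.mpr
  nlinarith [mul_le_mul a b nv hu0]

lemma tendsto_lim_of_bdd {f : ℕ → ℝ} {C : ℝ} (h : ∀ n, |f n| ≤ C) :
    Tendsto f (hyperfilter ℕ : Filter ℕ) (𝓝 (limUnder (hyperfilter ℕ : Filter ℕ) f)) := by
  obtain ⟨a, -, ha⟩ := (isCompact_Icc (a := -C) (b := C)).ultrafilter_le_nhds
    ((hyperfilter ℕ).map f) (by
      rw [Ultrafilter.coe_map, le_principal_iff, mem_map]
      exact Eventually.of_forall fun n => abs_le.mp (h n))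
  exact tendsto_nhds_limUnder ⟨a, ha⟩

theorem exists_limit_form (F : ∀ n : ℕ, Form (1 / ((n : ℝ) + 1))) : Nonempty (Form 0) := by
  set U : Filter ℕ := (hyperfilter ℕ : Filter ℕ) with hU
  have hε0 : ∀ n : ℕ, 0 ≤ 1 / ((n : ℝ) + 1) := fun n => by positivity
  have hε1 : ∀ n : ℕ, 1 / ((n : ℝ) + 1) ≤ 1 := fun n => by
    rw [div_le_one (by positivity)]; linarith [Nat.cast_nonneg (α := ℝ) n]
  have hεt : Tendsto (fun n : ℕ => 1 / ((n : ℝ) + 1)) U (𝓝 0) :=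
    tendsto_one_div_add_atTop_nhds_zero_nat.mono_left Nat.hyperfilter_le_atTop
  set B : ℝ → ℝ → Sec → Sec → ℝ := fun s1 s2 u v => limUnder U (fun n => (F n).B s1 s2 u v)
    with hB
  have T : ∀ s1 s2, s2 ≤ 0 → ∀ u v,
      Tendsto (fun n => (F n).B s1 s2 u v) U (𝓝 (B s1 s2 u v)) := by
    intro s1 s2 h u v
    obtain ⟨C, hC⟩ := uniform_bound s1 s2 h u v
    exact tendsto_lim_of_bdd fun n => hC _ (F n) (hε0 n) (hε1 n)
  have TE : ∀ s : ℝ, Tendsto (fun n : ℕ => Real.exp (-(2 * (1 / ((n : ℝ) + 1)) * s))) U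
      (𝓝 (Real.exp (-(2 * 0 * s)))) := fun s =>
    (Real.continuous_exp.tendsto _).comp (((hεt.const_mul 2).mul_const s).neg)
  refine ⟨⟨B, ?_, ?_, ?_, ?_, ?_, ?_, ?_, ?_, ?_, ?_, ?_, ?_, ?_, ?_⟩⟩
  · intro s1 s2 h u u' v
    exact tendsto_nhds_unique (T s1 s2 h _ _)
      (((T s1 s2 h u v).add (T s1 s2 h u' v)).congr fun n => ((F n).add s1 s2 h u u' v).symm)
  · intro s1 s2 h r u v
    exact tendsto_nhds_unique (T s1 s2 h _ _)
      (((T s1 s2 h u v).const_mul r).congr fun n => ((F n).smul s1 s2 h r u v).symm)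
  · intro s1 s2 h u v
    exact tendsto_nhds_unique (T s1 s2 h _ _)
      ((T s1 s2 h v u).congr fun n => ((F n).symm s1 s2 h u v).symm)
  · intro s1 s2 h u
    exact ge_of_tendsto' (T s1 s2 h u u) fun n => (F n).nonneg s1 s2 h u
  · intro s1 s2 h k u v
    exact tendsto_nhds_unique (T s1 s2 h _ _)
      (((T s1 s2 h _ _).const_mul _).congr fun n => ((F n).mvx s1 s2 h k u v).symm)
  · intro s1 s2 h k u v
    exact tendsto_nhds_unique (T s1 s2 h _ _)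
      (((T s1 s2 h _ _).const_mul _).congr fun n => ((F n).mvy s1 s2 h k u v).symm)
  · intro s1 s2 h f C u hC
    exact le_of_tendsto_of_tendsto' (T s1 s2 h _ _) ((T s1 s2 h u u).const_mul _)
      fun n => (F n).bd s1 s2 h f C u hC
  · intro s2 h u
    refine ⟨convex_univ, fun x hx y hy a b ha hb hab => ?_⟩
    exact le_of_tendsto_of_tendsto' (T _ s2 h u u)
      (((T x s2 h u u).const_mul a).add ((T y s2 h u u).const_mul b))
      fun n => ((F n).cvx1 s2 h u).2 hx hy ha hb hab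
  · intro s1 u
    refine ⟨convex_Iic 0, fun x hx y hy a b ha hb hab => ?_⟩
    exact le_of_tendsto_of_tendsto' (T s1 _ (convex_Iic 0 hx hy ha hb hab) u u)
      (((T s1 x hx u u).const_mul a).add ((T s1 y hy u u).const_mul b))
      fun n => ((F n).cvx2 s1 u).2 hx hy ha hb hab
  · intro s2 h u hu x y hxy
    exact le_of_tendsto_of_tendsto' (T x s2 h u u) (T y s2 h u u)
      fun n => (F n).mon1 s2 h u hu hxy
  · intro s2 h u hu x y hxy
    exact le_of_tendsto_of_tendsto' ((TE y).mul (T y s2 h u u)) ((TE x).mul (T x s2 h u u))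
      fun n => (F n).ant1 s2 h u hu hxy
  · intro s1 u hu x hx y hy hxy
    exact le_of_tendsto_of_tendsto' (T s1 x hx u u) (T s1 y hy u u)
      fun n => (F n).mon2 s1 u hu hx hy hxy
  · intro s1 u hu x hx y hy hxy
    exact le_of_tendsto_of_tendsto' ((TE y).mul (T s1 y hy u u)) ((TE x).mul (T s1 x hx u u))
      fun n => (F n).ant2 s1 u hu hx hy hxy
  · exact tendsto_nhds_unique ((T 0 0 le_rfl _ _).add (T 0 0 le_rfl _ _))
      (tendsto_const_nhds.congr fun n => (F n).norm.symm)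

end Crest.Agent.R258
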