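import Crest.Agent.R258.Calc
import Crest.Prelude.Def_QuadricBundle

/-!
The dual metric of a Griffiths positive metric makes squared norms of holomorphic sections
subharmonic along coordinate lines.
-/

set_option autoImplicit false

open Complex Filter Topology Set Matrix Crest.AlgGeometry.QuadricBundle
open scoped ComplexConjugate ComplexOrder

namespace Crest.Agent.R258

abbrev Mat : Type := Matrix (Fin 2) (Fin 2) ℂ
abbrev Vec : Type := Fin 2 → ℂ

/-- real part of the dual Hermitian form -/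
noncomputable def dual (M : Mat) (s t : Vec) : ℝ := (star t ⬝ᵥ (M⁻¹ *ᵥ s)).re

lemma dual_add_left (M : Mat) (s s' t : Vec) : dual M (s + s') t = dual M s t + dual M s' t := by
  rw [dual, dual, dual, mulVec_add, dotProduct_add, add_re]

lemma dual_smul_move (M : Mat) (c : ℂ) (s t : Vec) :
    dual M (c • s) t = dual M s (conj c • t) := by
  rw [dual, dual, mulVec_smul, dotProduct_smul, star_smul, smul_dotProduct, star_def, conj_conj]

lemma dual_smul_real (M : Mat) (r : ℝ) (s t : Vec) :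
    dual M ((r : ℂ) • s) t = r * dual M s t := by
  rw [dual, dual, mulVec_smul, dotProduct_smul, smul_eq_mul, re_ofReal_mul]

lemma dual_symm {M : Mat} (hM : M.PosDef) (s t : Vec) : dual M s t = dual M t s := by
  have h := hM.inv.isHermitian
  have : star t ⬝ᵥ (M⁻¹ *ᵥ s) = star (star s ⬝ᵥ (M⁻¹ *ᵥ t)) := by
    rw [star_dotProduct, star_mulVec, h.eq, ← dotProduct_mulVec]
  rw [dual, dual, this, star_def, conj_re]

lemma dual_nonneg {M : Mat} (hM : M.PosDef) (s : Vec) : 0 ≤ dual M s s :=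
  (Complex.nonneg_iff.mp (hM.inv.posSemidef.dotProduct_mulVec_nonneg s)).1

lemma dual_pos {M : Mat} (hM : M.PosDef) {s : Vec} (hs : s ≠ 0) : 0 < dual M s s :=
  (Complex.pos_iff.mp (hM.inv.dotProduct_mulVec_pos hs)).1

lemma dual_smul_smul {M : Mat} (hM : M.PosDef) (c : ℂ) (s t : Vec) :
    dual M (c • s) (c • t) = ‖c‖ ^ 2 * dual M s t := by
  rw [dual_smul_move, smul_smul, dual_symm hM, dual_symm hM s t, ← normSq_eq_conj_mul_self,
    dual_smul_real, Complex.normSq_eq_norm_sq]

lemma dual_add_le {M : Mat} (hM : M.PosDef) (s t : Vec) :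
    dual M (s + t) (s + t) ≤ 2 * dual M s s + 2 * dual M t t := by
  have h := dual_nonneg hM (s + ((-1 : ℝ) : ℂ) • t)
  rw [dual_add_left, dual_smul_real, dual_symm hM s, dual_symm hM t, dual_add_left, dual_add_left,
    dual_smul_real, dual_smul_real] at h
  rw [dual_add_left, dual_symm hM s, dual_symm hM t, dual_add_left, dual_add_left]
  linarith

lemma dual_le {M : Mat} (hM : M.PosDef) (s : Vec) {C : ℝ} (hC : ‖s‖ ≤ C) :
    dual M s s ≤ 2 * C ^ 2 * (dual M (Pi.single 0 1) (Pi.single 0 1) +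
      dual M (Pi.single 1 1) (Pi.single 1 1)) := by
  have e : s = s 0 • (Pi.single 0 1 : Vec) + s 1 • (Pi.single 1 1 : Vec) := by
    funext i; fin_cases i <;> simp
  have h0 : ‖s 0‖ ^ 2 ≤ C ^ 2 := pow_le_pow_left₀ (norm_nonneg _) ((norm_le_pi_norm s 0).trans hC) 2
  have h1 : ‖s 1‖ ^ 2 ≤ C ^ 2 := pow_le_pow_left₀ (norm_nonneg _) ((norm_le_pi_norm s 1).trans hC) 2
  have h := dual_add_le hM (s 0 • (Pi.single 0 1 : Vec)) (s 1 • (Pi.single 1 1 : Vec))
  rw [← e, dual_smul_smul hM, dual_smul_smul hM] at h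
  have p0 := dual_nonneg hM (Pi.single 0 1)
  have p1 := dual_nonneg hM (Pi.single 1 1)
  nlinarith

lemma det_ne_zero {M : Mat} (hM : M.PosDef) : M.det ≠ 0 :=
  ((Matrix.isUnit_iff_isUnit_det M).mp hM.isUnit).ne_zero

lemma dual_formula (M : Mat) (s t : Vec) :
    dual M s t = ((M 0 0 * M 1 1 - M 0 1 * M 1 0)⁻¹ *
      (conj (t 0) * (M 1 1 * s 0 - M 0 1 * s 1) + conj (t 1) * (M 0 0 * s 1 - M 1 0 * s 0))).re := by
  rw [dual, Matrix.inv_def, Ring.inverse_eq_inv', adjugate_fin_two, det_fin_two]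
  congr 1
  simp [dotProduct, mulVec, Fin.sum_univ_two]
  ring

lemma dual_compat {M M' g : Mat} (hM' : M'.PosDef) (h : M' = gᵀ * M * g.map conj) (s t : Vec) :
    dual M' (gᵀ *ᵥ s) (gᵀ *ᵥ t) = dual M s t := by
  have hd := det_ne_zero hM'
  rw [h, det_mul, det_mul] at hd
  have h1 : IsUnit gᵀ.det := (left_ne_zero_of_mul (left_ne_zero_of_mul hd)).isUnit
  have h2 : IsUnit (g.map conj).det := (right_ne_zero_of_mul hd).isUnit
  have e : star (gᵀ *ᵥ t) = star t ᵥ* g.map conj := by
    rw [star_mulVec]; rfl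
  rw [dual, dual, h, Matrix.mul_inv_rev, Matrix.mul_inv_rev, e, mulVec_mulVec, mul_assoc,
    mul_assoc, nonsing_inv_mul _ h1, mul_one, ← dotProduct_mulVec, mulVec_mulVec, ← mul_assoc,
    mul_nonsing_inv _ h2, one_mul]

/-- squared norm of a vector -/
noncomputable def nrm (M : Mat) (v : Vec) : ℝ := (∑ i, ∑ j, M i j * v i * conj (v j)).re

lemma nrm_eq (M : Mat) (v : Vec) : nrm M v = (star (star v) ⬝ᵥ (M *ᵥ star v)).re := by
  rw [nrm]
  congr 1
  simp [dotProduct, mulVec, Fin.sum_univ_two]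
  ring

lemma dual_ge {M : Mat} (hM : M.PosDef) (t v : Vec) :
    2 * (v ⬝ᵥ t).re - nrm M v ≤ dual M t t := by
  have hu : IsUnit M.det := (det_ne_zero hM).isUnit
  have h := dual_nonneg hM (t + ((-1 : ℝ) : ℂ) • (M *ᵥ star v))
  rw [dual_add_left, dual_smul_real, dual_symm hM t, dual_symm hM (M *ᵥ star v), dual_add_left,
    dual_add_left, dual_smul_real, dual_smul_real] at h
  have e1 : dual M (M *ᵥ star v) t = (v ⬝ᵥ t).re := by
    rw [dual, mulVec_mulVec, nonsing_inv_mul _ hu, one_mulVec, star_dotProduct_star, star_def,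
      conj_re]
  have e2 : dual M (M *ᵥ star v) (M *ᵥ star v) = nrm M v := by
    rw [nrm_eq, dual, mulVec_mulVec, nonsing_inv_mul _ hu, one_mulVec, star_mulVec,
      hM.isHermitian.eq, dotProduct_mulVec]
  rw [dual_symm hM t (M *ᵥ star v), e1, e2] at h
  linarith

lemma dual_eq {M : Mat} (hM : M.PosDef) (t : Vec) :
    2 * (star (M⁻¹ *ᵥ t) ⬝ᵥ t).re - nrm M (star (M⁻¹ *ᵥ t)) = dual M t t := by
  have hu : IsUnit M.det := (det_ne_zero hM).isUnit
  have e1 : (star (M⁻¹ *ᵥ t) ⬝ᵥ t).re = dual M t t := by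
    rw [dual, star_dotProduct, star_def, conj_re]
  rw [nrm_eq, star_star, star_star, mulVec_mulVec, mul_nonsing_inv _ hu, one_mulVec, e1]
  ring

lemma dual_contDiffAt {E : Type*} [NormedAddCommGroup E] [NormedSpace ℝ E] {M : E → Mat}
    {s t : E → Vec} {x : E} {n : WithTop ℕ∞} (hM : ∀ i j, ContDiffAt ℝ n (fun x => M x i j) x)
    (hp : (M x).PosDef) (hs : ∀ i, ContDiffAt ℝ n (fun x => s x i) x)
    (ht : ∀ i, ContDiffAt ℝ n (fun x => t x i) x) :
    ContDiffAt ℝ n (fun x => dual (M x) (s x) (t x)) x := by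
  simp only [dual_formula]
  have hc : ∀ i, ContDiffAt ℝ n (fun x => conj (t x i)) x := fun i =>
    conjCLE.contDiff.contDiffAt.comp x (ht i)
  have hd : M x 0 0 * M x 1 1 - M x 0 1 * M x 1 0 ≠ 0 := by
    rw [← det_fin_two]; exact det_ne_zero hp
  refine ContDiffAt.comp (g := re) x reCLM.contDiff.contDiffAt ?_
  exact ((((hM 0 0).mul (hM 1 1)).sub ((hM 0 1).mul (hM 1 0))).inv hd).mul
    (((hc 0).mul (((hM 1 1).mul (hs 0)).sub ((hM 0 1).mul (hs 1)))).add
      ((hc 1).mul (((hM 0 0).mul (hs 1)).sub ((hM 1 0).mul (hs 0)))))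

lemma dual_continuousAt {E : Type*} [TopologicalSpace E] {M : E → Mat}
    {s t : E → Vec} {x : E} (hM : ∀ i j, ContinuousAt (fun x => M x i j) x)
    (hp : (M x).PosDef) (hs : ∀ i, ContinuousAt (fun x => s x i) x)
    (ht : ∀ i, ContinuousAt (fun x => t x i) x) :
    ContinuousAt (fun x => dual (M x) (s x) (t x)) x := by
  simp only [dual_formula]
  have hc : ∀ i, ContinuousAt (fun x => conj (t x i)) x := fun i =>
    continuous_conj.continuousAt.comp (ht i)
  have hd : M x 0 0 * M x 1 1 - M x 0 1 * M x 1 0 ≠ 0 := by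
    rw [← det_fin_two]; exact det_ne_zero hp
  refine continuous_re.continuousAt.comp ?_
  exact ((((hM 0 0).mul (hM 1 1)).sub ((hM 0 1).mul (hM 1 0))).inv₀ hd).mul
    (((hc 0).mul (((hM 1 1).mul (hs 0)).sub ((hM 0 1).mul (hs 1)))).add
      ((hc 1).mul (((hM 0 0).mul (hs 1)).sub ((hM 1 0).mul (hs 0)))))

lemma nrm_contDiffAt {E : Type*} [NormedAddCommGroup E] [NormedSpace ℝ E] {M : E → Mat}
    {s : E → Vec} {x : E} {n : WithTop ℕ∞} (hM : ∀ i j, ContDiffAt ℝ n (fun x => M x i j) x)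
    (hs : ∀ i, ContDiffAt ℝ n (fun x => s x i) x) :
    ContDiffAt ℝ n (fun x => nrm (M x) (s x)) x := by
  simp only [nrm]
  have hc : ∀ i, ContDiffAt ℝ n (fun x => conj (s x i)) x := fun i =>
    conjCLE.contDiff.contDiffAt.comp x (hs i)
  refine ContDiffAt.comp (g := re) x reCLM.contDiff.contDiffAt ?_
  exact ContDiffAt.sum fun i _ => ContDiffAt.sum fun j _ => ((hM i j).mul (hs i)).mul (hc j)

lemma analytic_cd {u : ℂ → ℂ} {z : ℂ} (hu : AnalyticAt ℂ u z) : ContDiffAt ℝ 2 u z :=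
  (hu.contDiffAt (n := 2)).restrict_scalars ℝ

lemma Lap0_dual_nonneg {M : ℂ → Mat} {s t : ℂ → Vec}
    (hM : ∀ i j, ContDiffAt ℝ 2 (fun x => M x i j) 0) (hp : ∀ w, (M w).PosDef)
    (hs : ∀ i, AnalyticAt ℂ (fun x => s x i) 0) (ht : ∀ i, AnalyticAt ℂ (fun x => t x i) 0)
    (h0 : s 0 = star ((M 0)⁻¹ *ᵥ t 0)) (hL : Lap0 (fun w => nrm (M w) (s w)) ≤ 0) :
    0 ≤ Lap0 (fun w => dual (M w) (t w) (t w)) := by
  have c1 : ContDiffAt ℝ 2 (fun w => dual (M w) (t w) (t w)) 0 :=
    dual_contDiffAt hM (hp 0) (fun i => analytic_cd (ht i)) (fun i => analytic_cd (ht i))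
  have c2 : ContDiffAt ℝ 2 (fun w => nrm (M w) (s w)) 0 :=
    nrm_contDiffAt hM (fun i => analytic_cd (hs i))
  have a3 : AnalyticAt ℂ (fun w => 2 * (s w ⬝ᵥ t w)) 0 := by
    simp only [dotProduct, Fin.sum_univ_two]
    exact analyticAt_const.mul (((hs 0).mul (ht 0)).add ((hs 1).mul (ht 1)))
  have c3 : ContDiffAt ℝ 2 (fun w => (2 * (s w ⬝ᵥ t w)).re) 0 :=
    reCLM.contDiff.contDiffAt.comp 0 (analytic_cd a3)
  have hmin : IsLocalMin (fun w => dual (M w) (t w) (t w) -
      ((2 * (s w ⬝ᵥ t w)).re - nrm (M w) (s w))) 0 := by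
    refine Eventually.of_forall fun w => ?_
    have e1 := dual_ge (hp w) (t w) (s w)
    have e2 := dual_eq (hp 0) (t 0)
    rw [← h0] at e2
    simp only [mul_re, re_ofNat, im_ofNat, zero_mul, sub_zero]
    linarith
  have h := Lap0_nonneg_of_isLocalMin (c1.sub (c3.sub c2)).continuousAt hmin
  rw [Lap0_sub c1 (c3.sub c2), Lap0_sub c3 c2, Lap0_re_analytic a3] at h
  linarith

lemma smooth_comp {g : Transition 2} {H : MetricData 2} (hH : IsHermitianMetric g H) (α : Chart)
    {π : ℂ → Vec} (hπ : ContDiff ℝ 2 π) (i j : Fin 2) :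
    ContDiff ℝ 2 (fun w => H α (π w) i j) :=
  ((hH.smooth α i j).of_le (WithTop.coe_le_coe.mpr (le_top : (2 : ℕ∞) ≤ ⊤))).comp hπ

lemma update_exp_contDiff (q : Vec) (i : Fin 2) (w0 : ℂ) :
    ContDiff ℝ 2 (fun w => Function.update q i (exp (w0 + w))) := by
  refine contDiff_pi.mpr fun j => ?_
  by_cases h : j = i
  · subst h
    simp only [Function.update_self]
    have : ContDiff ℂ 2 (fun w => exp (w0 + w)) := by fun_prop
    exact this.restrict_scalars ℝ
  · simp only [Function.update_of_ne h]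
    exact contDiff_const

theorem line_contDiff {g : Transition 2} {H : MetricData 2} (hH : IsHermitianMetric g H)
    (α : Chart) (q : Vec) (i : Fin 2) {t : ℂ → Vec} (ht : ∀ j, Differentiable ℂ (fun w => t w j)) :
    ContDiff ℝ 2 (fun w => dual (H α (Function.update q i (exp w))) (t w) (t w)) := by
  refine contDiff_iff_contDiffAt.mpr fun w => ?_
  have h := update_exp_contDiff q i 0
  simp only [zero_add] at h
  exact dual_contDiffAt (fun a b => (smooth_comp hH α h a b).contDiffAt) (hH.posDef _ _)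
    (fun j => analytic_cd ((ht j).analyticAt w)) (fun j => analytic_cd ((ht j).analyticAt w))

theorem line_subharmonic {g : Transition 2} {H : MetricData 2} (hH : IsHermitianMetric g H)
    (hG : IsGriffithsPositive H) (α : Chart) (q : Vec) (i : Fin 2) {t : ℂ → Vec}
    (ht : ∀ j, Differentiable ℂ (fun w => t w j)) (w0 : ℂ) :
    0 ≤ Lap0 (fun w => dual (H α (Function.update q i (exp (w0 + w)))) (t (w0 + w))
      (t (w0 + w))) := by
  have hMs : ∀ a b, ContDiffAt ℝ 2
      (fun w => H α (Function.update q i (exp (w0 + w))) a b) 0 := fun a b =>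
    (smooth_comp hH α (update_exp_contDiff q i w0) a b).contDiffAt
  have hta : ∀ j, AnalyticAt ℂ (fun w => t (w0 + w) j) 0 := fun j =>
    ((ht j).comp (differentiable_id.const_add w0)).analyticAt 0
  by_cases h0 : t w0 = 0
  · refine Lap0_nonneg_of_isLocalMin ?_ (Eventually.of_forall fun w => ?_)
    · exact (dual_contDiffAt hMs (hH.posDef _ _) (fun j => analytic_cd (hta j))
        (fun j => analytic_cd (hta j))).continuousAt
    · have := dual_nonneg (hH.posDef α (Function.update q i (exp (w0 + w)))) (t (w0 + w))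
      simpa [h0, dual] using this
  · set p : Vec := Function.update q i (exp w0) with hp
    set ξ : Vec := Pi.single i (exp w0) with hξ
    have hξ0 : ξ ≠ 0 := by
      intro h
      have := congrFun h i
      simp [hξ] at this
    have hv0 : star ((H α p)⁻¹ *ᵥ t w0) ≠ 0 := by
      intro h
      have h1 : (H α p)⁻¹ *ᵥ t w0 = 0 := by simpa using h
      have h2 := dual_pos (hH.posDef α p) h0
      simp [dual, h1] at h2
    obtain ⟨U, s, hU, hpU, hs, hsp, hlev⟩ := hG α p ξ _ hξ0 hv0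
    have hpath : ∀ w, Function.update q i (exp (w0 + w)) = p + (exp w - 1) • ξ := by
      intro w
      funext j
      by_cases h : j = i
      · subst h
        simp only [hp, hξ, Function.update_self, Pi.add_apply, Pi.smul_apply, Pi.single_eq_same,
          smul_eq_mul, exp_add]
        ring
      · simp [hp, hξ, Function.update_of_ne h, Pi.single_eq_of_ne h]
    have hline : Differentiable ℂ (fun ζ : ℂ => p + ζ • ξ) := by fun_prop
    have hsa : ∀ j, AnalyticAt ℂ (fun ζ : ℂ => s (p + ζ • ξ) j) 0 := by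
      intro j
      have hO : IsOpen ((fun ζ : ℂ => p + ζ • ξ) ⁻¹' U) := hU.preimage hline.continuous
      have h1 : DifferentiableOn ℂ (fun ζ : ℂ => s (p + ζ • ξ)) ((fun ζ : ℂ => p + ζ • ξ) ⁻¹' U) :=
        hs.comp hline.differentiableOn fun ζ hζ => hζ
      exact (differentiableOn_pi.mp h1 j).analyticAt (hO.mem_nhds (by simpa using hpU))
    have hf : ContDiffAt ℝ 2 (fun ζ : ℂ => nrm (H α (p + ζ • ξ)) (s (p + ζ • ξ))) 0 := by
      refine nrm_contDiffAt (fun a b => ?_) (fun j => analytic_cd (hsa j))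
      have : ContDiff ℂ 2 (fun ζ : ℂ => p + ζ • ξ) := by fun_prop
      exact (smooth_comp hH α (this.restrict_scalars ℝ) a b).contDiffAt
    have hlev' : Lap0 (fun ζ : ℂ => nrm (H α (p + ζ • ξ)) (s (p + ζ • ξ))) < 0 := by
      convert hlev using 1
      simp only [Lap0, d2, leviAlong, secondDerivAlong, hNormSq, nrm, smul_smul, mul_comm I]
    refine Lap0_dual_nonneg (s := fun w => s (p + (exp w - 1) • ξ)) hMs (fun w => hH.posDef _ _)
      (fun j => ?_) hta ?_ ?_
    · have h1 : AnalyticAt ℂ (fun w : ℂ => exp w - 1) 0 := by fun_prop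
      exact AnalyticAt.comp_of_eq (hsa j) h1 (by simp)
    · simp only [exp_zero, sub_self, zero_smul, add_zero, hsp, ← hp]
    · simp only [hpath]
      rw [Lap0_exp hf]
      exact hlev'.le

theorem line_convex {g : Transition 2} {H : MetricData 2} (hH : IsHermitianMetric g H)
    (hG : IsGriffithsPositive H) (α : Chart) (q : Vec) (i : Fin 2) {t : ℂ → Vec}
    (ht : ∀ j, Differentiable ℂ (fun w => t w j)) (hper : ∀ w, t (w + 2 * Real.pi * I) = t w) :
    ConvexOn ℝ univ (fun s : ℝ => ∫ θ in (0 : ℝ)..2 * Real.pi,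
      dual (H α (Function.update q i (exp (s + θ * I)))) (t (s + θ * I)) (t (s + θ * I))) :=
  convexOn_mean (V := fun w => dual (H α (Function.update q i (exp w))) (t w) (t w))
    (line_contDiff hH α q i ht) (fun w => by simp only [hper, exp_add, exp_two_pi_mul_I, mul_one])
    (line_subharmonic hH hG α q i ht)

end Crest.Agent.R258
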