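import Crest.Agent.R258.Form

/-!
Torus averages of the dual metric of a Griffiths positive metric.
-/

set_option autoImplicit false

open Complex Filter Topology Set Matrix Crest.AlgGeometry.QuadricBundle
open scoped ComplexConjugate ComplexOrder

namespace Crest.Agent.R258

/-- circle mean -/
noncomputable def J (V : ℂ → ℝ) (σ : ℝ) : ℝ := ∫ θ in (0 : ℝ)..2 * Real.pi, V (σ + θ * I)

lemma J_int {V : ℂ → ℝ} (hV : Continuous V) (σ : ℝ) :
    IntervalIntegrable (fun θ : ℝ => V (σ + θ * I)) MeasureTheory.volume 0 (2 * Real.pi) :=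
  (hV.comp (show Continuous fun θ : ℝ => (σ : ℂ) + θ * I by fun_prop)).intervalIntegrable _ _

lemma J_congr {V V' : ℂ → ℝ} {σ σ' : ℝ} (h : ∀ θ : ℝ, V (σ + θ * I) = V' (σ' + θ * I)) :
    J V σ = J V' σ' := by
  simp only [J, h]

lemma J_add {V V' : ℂ → ℝ} (hV : Continuous V) (hV' : Continuous V') (σ : ℝ) :
    J (fun w => V w + V' w) σ = J V σ + J V' σ :=
  intervalIntegral.integral_add (J_int hV σ) (J_int hV' σ)

lemma J_const_mul (c : ℝ) (V : ℂ → ℝ) (σ : ℝ) : J (fun w => c * V w) σ = c * J V σ :=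
  intervalIntegral.integral_const_mul _ _

lemma J_mono {V V' : ℂ → ℝ} (hV : Continuous V) (hV' : Continuous V') {σ : ℝ}
    (h : ∀ θ : ℝ, V (σ + θ * I) ≤ V' (σ + θ * I)) : J V σ ≤ J V' σ :=
  intervalIntegral.integral_mono_on Real.two_pi_pos.le (J_int hV σ) (J_int hV' σ) fun θ _ => h θ

lemma J_const (c σ : ℝ) : J (fun _ => c) σ = 2 * Real.pi * c := by simp [J]

lemma J_pos {V : ℂ → ℝ} (hV : Continuous V) (h : ∀ w, 0 < V w) (σ : ℝ) : 0 < J V σ :=
  intervalIntegral.intervalIntegral_pos_of_pos (J_int hV σ) (fun _ => h _) Real.two_pi_pos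

lemma J_cont {Ψ : ℂ → ℂ → ℝ} (h : Continuous Ψ.uncurry) (σ : ℝ) :
    Continuous (fun w => J (Ψ w) σ) :=
  intervalIntegral.continuous_parametric_intervalIntegral_of_continuous'
    (f := fun w (θ : ℝ) => Ψ w (σ + θ * I))
    (h.comp (show Continuous fun q : ℂ × ℝ => (q.1, (σ : ℂ) + q.2 * I) by fun_prop)) _ _

lemma cont_slice {Ψ : ℂ → ℂ → ℝ} (h : Continuous Ψ.uncurry) (w : ℂ) : Continuous (Ψ w) :=
  h.comp (show Continuous fun z : ℂ => (w, z) by fun_prop)

lemma cont_swap {Ψ : ℂ → ℂ → ℝ} (h : Continuous Ψ.uncurry) :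
    Continuous (Function.uncurry fun a b => Ψ b a) := h.comp continuous_swap

/-- torus mean -/
noncomputable def I2 (Ψ : ℂ → ℂ → ℝ) (σ1 σ2 : ℝ) : ℝ := J (fun w => J (Ψ w) σ2) σ1

lemma I2_swap {Ψ : ℂ → ℂ → ℝ} (h : Continuous Ψ.uncurry) (σ1 σ2 : ℝ) :
    I2 Ψ σ1 σ2 = I2 (fun a b => Ψ b a) σ2 σ1 := by
  simp only [I2, J]
  refine MeasureTheory.intervalIntegral_intervalIntegral_swap
    (F := fun θ1 θ2 : ℝ => Ψ (σ1 + θ1 * I) (σ2 + θ2 * I)) ?_
  have hc : Continuous (Function.uncurry fun θ1 θ2 : ℝ => Ψ (σ1 + θ1 * I) (σ2 + θ2 * I)) :=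
    h.comp (show Continuous fun q : ℝ × ℝ => ((σ1 : ℂ) + q.1 * I, (σ2 : ℂ) + q.2 * I) by fun_prop)
  exact (hc.continuousOn.integrableOn_compact (isCompact_uIcc.prod isCompact_uIcc)).mono_set
    (prod_mono uIoc_subset_uIcc uIoc_subset_uIcc)

lemma I2_congr {Ψ Ψ' : ℂ → ℂ → ℝ} {σ1 σ2 : ℝ}
    (h : ∀ θ1 θ2 : ℝ, Ψ (σ1 + θ1 * I) (σ2 + θ2 * I) = Ψ' (σ1 + θ1 * I) (σ2 + θ2 * I)) :
    I2 Ψ σ1 σ2 = I2 Ψ' σ1 σ2 :=
  J_congr fun θ1 => J_congr fun θ2 => h θ1 θ2

lemma I2_add {Ψ Ψ' : ℂ → ℂ → ℝ} (h : Continuous Ψ.uncurry) (h' : Continuous Ψ'.uncurry)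
    (σ1 σ2 : ℝ) : I2 (fun a b => Ψ a b + Ψ' a b) σ1 σ2 = I2 Ψ σ1 σ2 + I2 Ψ' σ1 σ2 := by
  simp only [I2]
  rw [← J_add (J_cont h _) (J_cont h' _)]
  exact J_congr fun θ => J_add (cont_slice h _) (cont_slice h' _) _

lemma I2_const_mul (c : ℝ) (Ψ : ℂ → ℂ → ℝ) (σ1 σ2 : ℝ) :
    I2 (fun a b => c * Ψ a b) σ1 σ2 = c * I2 Ψ σ1 σ2 := by
  simp only [I2]
  rw [← J_const_mul]
  exact J_congr fun θ => J_const_mul _ _ _

lemma I2_mono {Ψ Ψ' : ℂ → ℂ → ℝ} (h : Continuous Ψ.uncurry) (h' : Continuous Ψ'.uncurry)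
    {σ1 σ2 : ℝ}
    (hle : ∀ θ1 θ2 : ℝ, Ψ (σ1 + θ1 * I) (σ2 + θ2 * I) ≤ Ψ' (σ1 + θ1 * I) (σ2 + θ2 * I)) :
    I2 Ψ σ1 σ2 ≤ I2 Ψ' σ1 σ2 :=
  J_mono (J_cont h _) (J_cont h' _) fun θ1 =>
    J_mono (cont_slice h _) (cont_slice h' _) fun θ2 => hle θ1 θ2

lemma I2_pos {Ψ : ℂ → ℂ → ℝ} (h : Continuous Ψ.uncurry) (hp : ∀ a b, 0 < Ψ a b) (σ1 σ2 : ℝ) :
    0 < I2 Ψ σ1 σ2 :=
  J_pos (J_cont h _) (fun w => J_pos (cont_slice h w) (hp w) _) _

lemma I2_transfer2 {Ψ : ℂ → ℂ → ℝ} (h : Continuous Ψ.uncurry) (σ : ℝ) {x y z c a b : ℝ}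
    (hle : ∀ w, c * J (Ψ w) x ≤ a * J (Ψ w) y + b * J (Ψ w) z) :
    c * I2 Ψ σ x ≤ a * I2 Ψ σ y + b * I2 Ψ σ z := by
  simp only [I2]
  have hc : ∀ c x : ℝ, Continuous fun w => c * J (Ψ w) x := fun c x =>
    continuous_const.mul (J_cont h _)
  rw [← J_const_mul, ← J_const_mul, ← J_const_mul, ← J_add (hc _ _) (hc _ _)]
  exact J_mono (hc _ _) ((hc _ _).add (hc _ _)) fun θ => hle _

lemma I2_transfer1 {Ψ : ℂ → ℂ → ℝ} (h : Continuous Ψ.uncurry) (σ : ℝ) {x y z c a b : ℝ}
    (hle : ∀ w, c * J (fun v => Ψ v w) x ≤ a * J (fun v => Ψ v w) y + b * J (fun v => Ψ v w) z) :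
    c * I2 Ψ x σ ≤ a * I2 Ψ y σ + b * I2 Ψ z σ := by
  rw [I2_swap h, I2_swap h y, I2_swap h z]
  exact I2_transfer2 (cont_swap h) σ hle

section lines

variable {g : Transition 2} {H : MetricData 2}

lemma line_bdd (hH : IsHermitianMetric g H) (α : Chart) (q : Vec) (i : Fin 2) (C : ℝ) :
    ∃ C', ∀ z : ℂ, ‖z‖ ≤ 1 → ∀ s : Vec, ‖s‖ ≤ C →
      dual (H α (Function.update q i z)) s s ≤ C' := by
  have hc : ∀ j : Fin 2, Continuous fun z : ℂ =>
      dual (H α (Function.update q i z)) (Pi.single j 1) (Pi.single j 1) := fun j =>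
    continuous_iff_continuousAt.mpr fun z => dual_continuousAt
      (fun a b => ((hH.smooth α a b).continuous.comp
        (continuous_const.update i continuous_id)).continuousAt) (hH.posDef _ _)
      (fun _ => continuousAt_const) (fun _ => continuousAt_const)
  obtain ⟨K, hK⟩ := (isCompact_closedBall (0 : ℂ) 1).exists_bound_of_continuousOn
    ((hc 0).add (hc 1)).continuousOn
  refine ⟨2 * C ^ 2 * K, fun z hz s hs => (dual_le (hH.posDef _ _) s hs).trans ?_⟩
  exact mul_le_mul_of_nonneg_left ((le_abs_self _).trans (hK z (by simpa using hz)))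
    (by positivity)

lemma line_monotone (hH : IsHermitianMetric g H) (hG : IsGriffithsPositive H) (α : Chart)
    (q : Vec) (i : Fin 2) {t : ℂ → Vec} (ht : ∀ j, Differentiable ℂ (fun w => t w j))
    (hper : ∀ w, t (w + 2 * Real.pi * I) = t w) {C : ℝ} (hb : ∀ w : ℂ, w.re ≤ 0 → ‖t w‖ ≤ C) :
    Monotone (J fun w => dual (H α (Function.update q i (exp w))) (t w) (t w)) := by
  obtain ⟨C', hC'⟩ := line_bdd hH α q i C
  refine monotone_of_convex_bdd (line_convex hH hG α q i ht hper) (C := 2 * Real.pi * C')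
    fun s hs => ?_
  rw [← J_const C' s]
  refine J_mono (line_contDiff hH α q i ht).continuous continuous_const fun θ => ?_
  have hre : ((s : ℂ) + θ * I).re = s := by simp
  refine hC' _ ?_ _ (hb _ (by rwa [hre]))
  rw [norm_exp, hre]
  exact Real.exp_le_one_iff.mpr hs

lemma line_antitone (hH : IsHermitianMetric g H) (hG : IsGriffithsPositive H) (α β : Chart)
    (q : Vec) (i : Fin 2) {t : ℂ → Vec} (ht : ∀ j, Differentiable ℂ (fun w => t w j))
    (hper : ∀ w, t (w + 2 * Real.pi * I) = t w) {g' : ℂ → Mat}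
    (hc : ∀ w, H β (Function.update q i (exp (-w))) =
      (exp w • g' w)ᵀ * H α (Function.update q i (exp w)) * (exp w • g' w).map conj)
    {C : ℝ} (hb : ∀ w : ℂ, 0 ≤ w.re → ‖(g' w)ᵀ *ᵥ t w‖ ≤ C) :
    Antitone fun σ => Real.exp (-(2 * σ)) *
      J (fun w => dual (H α (Function.update q i (exp w))) (t w) (t w)) σ := by
  obtain ⟨C', hC'⟩ := line_bdd hH β q i C
  have ht' : ∀ j, Differentiable ℂ (fun w => (exp (-w) • t w) j) := fun j => by
    simp only [Pi.smul_apply, smul_eq_mul]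
    exact (differentiable_neg.cexp).mul (ht j)
  have hper' : ∀ w, exp (-(w + 2 * Real.pi * I)) • t (w + 2 * Real.pi * I) = exp (-w) • t w := by
    intro w
    rw [hper, exp_neg, exp_neg, exp_add, exp_two_pi_mul_I, mul_one]
  have e : (fun σ => Real.exp (-(2 * σ)) *
      J (fun w => dual (H α (Function.update q i (exp w))) (t w) (t w)) σ) =
      J (fun w => dual (H α (Function.update q i (exp w))) (exp (-w) • t w) (exp (-w) • t w)) := by
    funext σ
    rw [← J_const_mul]
    refine J_congr fun θ => ?_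
    rw [dual_smul_smul (hH.posDef _ _), norm_exp, ← Real.exp_nat_mul]
    congr 2
    simp
  rw [e]
  refine antitone_of_convex_bdd (line_convex hH hG α q i ht' hper') (C := 2 * Real.pi * C')
    fun s hs => ?_
  rw [← J_const C' s]
  refine J_mono (line_contDiff hH α q i ht').continuous continuous_const fun θ => ?_
  have hre : ((s : ℂ) + θ * I).re = s := by simp
  rw [← dual_compat (hH.posDef _ _) (hc _)]
  refine hC' _ ?_ _ ?_
  · rw [norm_exp, neg_re, hre]
    exact Real.exp_le_one_iff.mpr (by linarith)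
  · rw [transpose_smul, smul_mulVec, mulVec_smul, smul_smul, ← exp_add, add_neg_cancel, exp_zero,
      one_smul]
    exact hb _ (by rwa [hre])

end lines

lemma val_per1 (u : Sec) (N : ℕ) (a b : ℂ) :
    val u (N * (a + 2 * Real.pi * I), b) = val u (N * a, b) := by
  funext i
  have p : Function.Periodic (fun a : ℂ => (u i).1 (a, b)) (2 * Real.pi * I) :=
    fun a => (u i).2.2.1 a b
  have := p.nat_mul N (N * a)
  simp only [val, evG_apply, mul_add]
  exact this

lemma val_per2 (u : Sec) (N : ℕ) (a b : ℂ) :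
    val u (a, N * (b + 2 * Real.pi * I)) = val u (a, N * b) := by
  funext i
  have p : Function.Periodic (fun b : ℂ => (u i).1 (a, b)) (2 * Real.pi * I) :=
    fun b => (u i).2.2.2 a b
  have := p.nat_mul N (N * b)
  simp only [val, evG_apply, mul_add]
  exact this

lemma val_diff1 (u : Sec) (N : ℕ) (b : ℂ) (j : Fin 2) :
    Differentiable ℂ (fun a : ℂ => val u (N * a, b) j) :=
  (u j).2.1.comp (by fun_prop)

lemma val_diff2 (u : Sec) (N : ℕ) (a : ℂ) (j : Fin 2) :
    Differentiable ℂ (fun b : ℂ => val u (a, N * b) j) :=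
  (u j).2.1.comp (by fun_prop)

lemma upd0 (x y z : ℂ) : Function.update (![x, y] : Vec) 0 z = ![z, y] := by
  funext i
  rcases fin2_cases i with rfl | rfl <;> simp

lemma upd1 (x y z : ℂ) : Function.update (![x, y] : Vec) 1 z = ![x, z] := by
  funext i
  rcases fin2_cases i with rfl | rfl <;> simp

lemma pw_exp (N : ℕ) (a b : ℂ) : pw N ![exp a, exp b] = ![exp (N * a), exp (N * b)] := by
  funext i
  rcases fin2_cases i with rfl | rfl <;> simp [pw, exp_nat_mul]

section main

variable {N : ℕ} {H : MetricData 2}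

/-- the pointwise pairing -/
noncomputable def Phi (H : MetricData 2) (N : ℕ) (u v : Sec) (a b : ℂ) : ℝ :=
  dual (H (0, 0) ![exp a, exp b]) (val u (N * a, N * b)) (val v (N * a, N * b))

lemma Phi_cont (hH : IsHermitianMetric (gn N) H) (u v : Sec) :
    Continuous (Function.uncurry (Phi H N u v)) := by
  have h1 : Continuous fun x : ℂ × ℂ => (![exp x.1, exp x.2] : Vec) := by
    refine continuous_pi fun i => ?_
    rcases fin2_cases i with rfl | rfl <;> simp <;> fun_prop
  have h2 : Continuous fun x : ℂ × ℂ => ((N * x.1, N * x.2) : ℂ × ℂ) := by fun_prop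
  exact continuous_iff_continuousAt.mpr fun x => dual_continuousAt
    (M := fun x : ℂ × ℂ => H (0, 0) ![exp x.1, exp x.2])
    (s := fun x : ℂ × ℂ => val u (N * x.1, N * x.2))
    (t := fun x : ℂ × ℂ => val v (N * x.1, N * x.2))
    (fun a b => ((hH.smooth (0, 0) a b).continuous.comp h1).continuousAt) (hH.posDef _ _)
    (fun i => ((u i).2.1.continuous.comp h2).continuousAt)
    (fun i => ((v i).2.1.continuous.comp h2).continuousAt)

lemma slice1 (u : Sec) (b : ℂ) : (fun a => Phi H N u u a b) = fun a =>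
    dual (H (0, 0) (Function.update ![0, exp b] 0 (exp a))) (val u (N * a, N * b))
      (val u (N * a, N * b)) := by
  funext a; rw [upd0]; rfl

lemma slice2 (u : Sec) (a : ℂ) : Phi H N u u a = fun b =>
    dual (H (0, 0) (Function.update ![exp a, 0] 1 (exp b))) (val u (N * a, N * b))
      (val u (N * a, N * b)) := by
  funext b; rw [upd1]; rfl

lemma re_nat_mul (N : ℕ) (a : ℂ) : ((N : ℂ) * a).re = N * a.re := by simp

lemma compatX (hH : IsHermitianMetric (gn N) H) (a b : ℂ) :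
    H (1, 0) (Function.update ![0, exp b] 0 (exp (-a))) =
      (exp a • g0 (0, 0) (1, 0) ![exp (N * a), exp (N * b)])ᵀ *
        H (0, 0) (Function.update ![0, exp b] 0 (exp a)) *
        (exp a • g0 (0, 0) (1, 0) ![exp (N * a), exp (N * b)]).map conj := by
  have := hH.compat (0, 0) (1, 0) ![exp a, exp b] ⟨fun _ => exp_ne_zero a, fun h => absurd rfl h⟩
  rw [gn, pw_exp] at this
  rw [upd0, upd0]
  convert this using 3
  · funext i
    rcases fin2_cases i with rfl | rfl <;> simp [tau, exp_neg]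
  all_goals simp [lineTrans]

lemma compatY (hH : IsHermitianMetric (gn N) H) (a b : ℂ) :
    H (0, 1) (Function.update ![exp a, 0] 1 (exp (-b))) =
      (exp b • g0 (0, 0) (0, 1) ![exp (N * a), exp (N * b)])ᵀ *
        H (0, 0) (Function.update ![exp a, 0] 1 (exp b)) *
        (exp b • g0 (0, 0) (0, 1) ![exp (N * a), exp (N * b)]).map conj := by
  have := hH.compat (0, 0) (0, 1) ![exp a, exp b] ⟨fun h => absurd rfl h, fun _ => exp_ne_zero b⟩
  rw [gn, pw_exp] at this
  rw [upd1, upd1]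
  convert this using 3
  · funext i
    rcases fin2_cases i with rfl | rfl <;> simp [tau, exp_neg]
  all_goals simp [lineTrans]

lemma dual_exp_move {M : Mat} (hM : M.PosDef) (k : ℤ) (c : ℂ) (s t : Vec) :
    dual M (exp (k * c) • s) t =
      Real.exp (2 * k * c.re) * dual M s (exp (((-k : ℤ) : ℂ) * c) • t) := by
  have e : conj (exp (k * c)) = (Real.exp (2 * k * c.re) : ℂ) * exp (((-k : ℤ) : ℂ) * c) := by
    rw [← exp_conj, ofReal_exp, ← exp_add]
    congr 1
    apply Complex.ext <;> simp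
    ring
  rw [dual_smul_move, e, ← smul_smul, dual_symm hM, dual_smul_real, dual_symm hM]

theorem exists_form (n : ℕ) (hH : IsHermitianMetric (gn (n + 1)) H)
    (hG : IsGriffithsPositive H) : Nonempty (Form (1 / ((n : ℝ) + 1))) := by
  set N := n + 1 with hN
  have hNr : (N : ℝ) = (n : ℝ) + 1 := by rw [hN]; push_cast; ring
  have hNp : (0 : ℝ) < N := by rw [hNr]; positivity
  have hc := Phi_cont hH
  have hp : ∀ a b, (H (0, 0) ![exp a, exp b]).PosDef := fun a b => hH.posDef _ _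
  set T : ℝ := I2 (Phi H N (bas 0) (bas 0)) 0 0 + I2 (Phi H N (bas 1) (bas 1)) 0 0 with hT
  have hTp : 0 < T := by
    refine add_pos (I2_pos (hc _ _) (fun a b => dual_pos (hp a b) ?_) _ _)
      (I2_pos (hc _ _) (fun a b => dual_pos (hp a b) ?_) _ _)
    · rw [val_bas]; simp
    · rw [val_bas]; simp
  have hTi : 0 ≤ T⁻¹ := (inv_pos.mpr hTp).le
  have hre : ∀ s θ : ℝ, ((N : ℂ) * (((s / N : ℝ) : ℂ) + θ * I)).re = s := by
    intro s θ
    rw [re_nat_mul]; simp; field_simp
  have hdiv : ∀ {x y : ℝ}, x ≤ y → x / N ≤ y / N := fun h => div_le_div_of_nonneg_right h hNp.le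
  have cv1 : ∀ u b, ConvexOn ℝ univ (J fun a => Phi H N u u a b) := fun u b => by
    rw [slice1]
    exact line_convex hH hG _ _ _ (val_diff1 u N _) fun w => val_per1 u N w _
  have cv2 : ∀ u a, ConvexOn ℝ univ (J (Phi H N u u a)) := fun u a => by
    rw [slice2]
    exact line_convex hH hG _ _ _ (val_diff2 u N _) fun w => val_per2 u N _ w
  have hexp : ∀ s : ℝ, -(2 * (1 / ((n : ℝ) + 1)) * s) = -(2 * (s / N)) := fun s => by
    rw [hNr]; ring
  refine ⟨⟨fun s1 s2 u v => T⁻¹ * I2 (Phi H N u v) (s1 / N) (s2 / N), ?_, ?_, ?_, ?_, ?_, ?_, ?_,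
    ?_, ?_, ?_, ?_, ?_, ?_, ?_⟩⟩
  · intro s1 s2 _ u u' v
    rw [← mul_add, ← I2_add (hc _ _) (hc _ _)]
    congr 1
    exact I2_congr fun θ1 θ2 => by simp only [Phi, val_add, dual_add_left]
  · intro s1 s2 _ r u v
    rw [mul_left_comm, ← I2_const_mul r]
    congr 1
    exact I2_congr fun θ1 θ2 => by simp only [Phi, val_smul, evG_cst, dual_smul_real]
  · intro s1 s2 _ u v
    congr 1
    exact I2_congr fun θ1 θ2 => dual_symm (hp _ _) _ _
  · intro s1 s2 _ u
    refine mul_nonneg hTi ?_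
    have := I2_mono (Ψ := fun _ _ => 0) continuous_const (hc u u) (σ1 := s1 / N) (σ2 := s2 / N)
      fun θ1 θ2 => dual_nonneg (hp _ _) _
    simpa [I2, J] using this
  · intro s1 s2 _ k u v
    rw [mul_left_comm, ← I2_const_mul (Real.exp _)]
    congr 1
    exact I2_congr fun θ1 θ2 => by
      simp only [Phi, val_smul, evG_xp, dual_exp_move (hp _ _), hre]
  · intro s1 s2 _ k u v
    rw [mul_left_comm, ← I2_const_mul (Real.exp _)]
    congr 1
    exact I2_congr fun θ1 θ2 => by
      simp only [Phi, val_smul, evG_yp, dual_exp_move (hp _ _), hre]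
  · intro s1 s2 _ f C u hC
    rw [mul_left_comm, ← I2_const_mul (C ^ 2)]
    have hcc : Continuous (Function.uncurry fun a b => C ^ 2 * Phi H N u u a b) :=
      continuous_const.mul (hc u u)
    refine mul_le_mul_of_nonneg_left (I2_mono (hc _ _) hcc fun θ1 θ2 => ?_) hTi
    simp only [Phi, val_smul, dual_smul_smul (hp _ _)]
    refine mul_le_mul_of_nonneg_right (pow_le_pow_left₀ (norm_nonneg _) ?_ 2)
      (dual_nonneg (hp _ _) _)
    have e : ∀ s θ : ℝ, (N : ℂ) * (((s / N : ℝ) : ℂ) + θ * I) = s + ((N * θ : ℝ) : ℂ) * I := by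
      intro s θ
      have : (N : ℂ) ≠ 0 := by exact_mod_cast hNp.ne'
      push_cast; field_simp
    rw [e, e]
    exact hC _ _
  · intro s2 _ u
    refine ⟨convex_univ, fun x _ y _ a b ha hb hab => ?_⟩
    have := I2_transfer1 (hc u u) (s2 / N) (c := 1) (a := a) (b := b)
      (x := a * (x / N) + b * (y / N)) (y := x / N) (z := y / N) fun w => by
        rw [one_mul]
        exact (cv1 u w).2 (mem_univ _) (mem_univ _) ha hb hab
    have e : (a * x + b * y) / N = a * (x / N) + b * (y / N) := by ring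
    simp only [smul_eq_mul, e]
    nlinarith [mul_le_mul_of_nonneg_left this hTi]
  · intro s1 u
    refine ⟨convex_Iic 0, fun x _ y _ a b ha hb hab => ?_⟩
    have := I2_transfer2 (hc u u) (s1 / N) (c := 1) (a := a) (b := b)
      (x := a * (x / N) + b * (y / N)) (y := x / N) (z := y / N) fun w => by
        rw [one_mul]
        exact (cv2 u w).2 (mem_univ _) (mem_univ _) ha hb hab
    have e : (a * x + b * y) / N = a * (x / N) + b * (y / N) := by ring
    simp only [smul_eq_mul, e]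
    nlinarith [mul_le_mul_of_nonneg_left this hTi]
  · intro s2 _ u hu x y hxy
    have := I2_transfer1 (hc u u) (s2 / N) (c := 1) (a := 1) (b := 0)
      (x := x / N) (y := y / N) (z := 0) fun w => by
        obtain ⟨C, hC⟩ := hu (N * w)
        rw [one_mul, one_mul, zero_mul, add_zero, slice1]
        exact line_monotone hH hG _ _ _ (val_diff1 u N _) (fun w => val_per1 u N w _)
          (fun a ha => hC _ (by rw [re_nat_mul]; exact mul_nonpos_of_nonneg_of_nonpos hNp.le ha))
          (hdiv hxy)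
    simp only [one_mul, zero_mul, add_zero] at this
    exact mul_le_mul_of_nonneg_left this hTi
  · intro s2 _ u hu x y hxy
    have := I2_transfer1 (hc u u) (s2 / N) (c := Real.exp (-(2 * (y / N))))
      (a := Real.exp (-(2 * (x / N)))) (b := 0)
      (x := y / N) (y := x / N) (z := 0) fun w => by
        obtain ⟨C, hC⟩ := hu (N * w)
        rw [zero_mul, add_zero, slice1]
        exact line_antitone hH hG _ (1, 0) _ _ (val_diff1 u N _) (fun w => val_per1 u N w _)
          (fun a => compatX hH a w)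
          (fun a ha => hC _ (by rw [re_nat_mul]; exact mul_nonneg hNp.le ha)) (hdiv hxy)
    simp only [zero_mul, add_zero] at this
    simp only [hexp]
    nlinarith [mul_le_mul_of_nonneg_left this hTi]
  · intro s1 u hu x _ y _ hxy
    have := I2_transfer2 (hc u u) (s1 / N) (c := 1) (a := 1) (b := 0)
      (x := x / N) (y := y / N) (z := 0) fun w => by
        obtain ⟨C, hC⟩ := hu (N * w)
        rw [one_mul, one_mul, zero_mul, add_zero, slice2]
        exact line_monotone hH hG _ _ _ (val_diff2 u N _) (fun b => val_per2 u N _ b)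
          (fun a ha => hC _ (by rw [re_nat_mul]; exact mul_nonpos_of_nonneg_of_nonpos hNp.le ha))
          (hdiv hxy)
    simp only [one_mul, zero_mul, add_zero] at this
    exact mul_le_mul_of_nonneg_left this hTi
  · intro s1 u hu x _ y _ hxy
    have := I2_transfer2 (hc u u) (s1 / N) (c := Real.exp (-(2 * (y / N))))
      (a := Real.exp (-(2 * (x / N)))) (b := 0)
      (x := y / N) (y := x / N) (z := 0) fun w => by
        obtain ⟨C, hC⟩ := hu (N * w)
        rw [zero_mul, add_zero, slice2]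
        exact line_antitone hH hG _ (0, 1) _ _ (val_diff2 u N _) (fun b => val_per2 u N _ b)
          (fun a => compatY hH w a)
          (fun a ha => hC _ (by rw [re_nat_mul]; exact mul_nonneg hNp.le ha)) (hdiv hxy)
    simp only [zero_mul, add_zero] at this
    simp only [hexp]
    nlinarith [mul_le_mul_of_nonneg_left this hTi]
  · simp only [zero_div]
    rw [← mul_add, ← hT, inv_mul_cancel₀ hTp.ne']

end main

end Crest.Agent.R258
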